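import Vale.Agent.P230.H706.Window

set_option linter.all false

namespace Vale.Agent.P230.C1

open MeasureTheory ProbabilityTheory
open scoped ENNReal

/-- pointwise lower bound for the mean, profile version -/
theorem mean_lower' {t n : ℕ} (ht : 1 ≤ t) (C : ℝ) (hC : 0 ≤ C) (b : Fin t → ℝ)
    (v : EuclideanSpace ℝ (Fin n)) (hv1 : 1 ≤ ‖v‖ ^ 2) (hv2 : ‖v‖ ^ 2 ≤ 1 + C / Real.sqrt t) :
    (1 / (t : ℝ) ^ 2) ^ t * Real.exp (-(C + 1) ^ 2) *
      Real.exp (-(max (∑ i, b i ^ 2) t) / 2) ≤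
      ∫ γ, gker (1 / (t : ℝ) ^ 2) b γ v ∂(gm t n) := by
  have ht0 : (0 : ℝ) < t := by exact_mod_cast ht
  have ht1 : (1 : ℝ) ≤ t := by exact_mod_cast ht
  set w := Real.sqrt t with hw
  have hw2 : w ^ 2 = t := Real.sq_sqrt ht0.le
  have hw1 : 1 ≤ w := by rw [hw, Real.one_le_sqrt]; exact ht1
  have hw0 : 0 < w := by linarith
  set r : ℝ := 1 / (t : ℝ) ^ 2 with hr
  have hr0 : 0 < r := by positivity
  rw [gker_mean r hr0]
  have hS0 : 0 ≤ ∑ i, b i ^ 2 := Finset.sum_nonneg fun i _ => sq_nonneg _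
  set y := r ^ 2 + ‖v‖ ^ 2 - 1 with hy
  have hy0 : 0 ≤ y := by rw [hy]; have := sq_nonneg r; linarith
  have hyw : y ≤ (C + 1) / w := by
    have h1 : r ^ 2 ≤ 1 / w := by
      rw [hr, div_pow, one_pow, ← pow_mul]
      apply one_div_le_one_div_of_le hw0
      have h2 : w ≤ t := by rw [← hw2]; nlinarith only [hw1]
      refine h2.trans ?_
      calc (t : ℝ) = t ^ 1 := (pow_one _).symm
        _ ≤ (t : ℝ) ^ (2 * 2) := pow_le_pow_right₀ ht1 (by norm_num)
    have : (C + 1) / w = C / w + 1 / w := by ring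
    rw [this, hy]
    linarith
  have hq : r ^ 2 + ‖v‖ ^ 2 = 1 + y := by rw [hy]; ring
  rw [hq]
  have h1y : 0 < 1 + y := by linarith
  set β := max (∑ i, b i ^ 2) (t : ℝ) with hβ
  have hβt : (t : ℝ) ≤ β := le_max_right _ _
  have hβb : ∑ i, b i ^ 2 ≤ β := le_max_left _ _
  rw [Real.rpow_def_of_pos (by positivity), ← Real.exp_add]
  have hrt : r ^ t = Real.exp (t * Real.log r) := by
    rw [Real.exp_nat_mul, Real.exp_log hr0]
  rw [hrt, ← Real.exp_add, ← Real.exp_add, Real.exp_le_exp]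
  rw [Real.log_div (by positivity) h1y.ne', Real.log_pow]
  have hlog : Real.log (1 + y) ≤ y := by
    have := Real.log_le_sub_one_of_pos h1y
    linarith
  have h3 : (∑ i, b i ^ 2) / (2 * (1 + y)) ≤ β / (2 * (1 + y)) :=
    div_le_div_of_nonneg_right hβb (by positivity)
  have h4 : β / (2 * (1 + y)) = β / 2 - β / 2 * (y / (1 + y)) := by
    field_simp
    ring
  have h5 : (t : ℝ) / 2 * (y / (1 + y)) ≤ β / 2 * (y / (1 + y)) :=
    mul_le_mul_of_nonneg_right (by linarith) (by positivity)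
  have h6 : y - y ^ 2 ≤ y / (1 + y) := by
    rw [le_div_iff₀ h1y]
    nlinarith only [hy0, pow_nonneg hy0 3]
  have h7 : (t : ℝ) / 2 * (y - y ^ 2) ≤ t / 2 * (y / (1 + y)) :=
    mul_le_mul_of_nonneg_left h6 (by positivity)
  have h8 : (t : ℝ) / 2 * Real.log (1 + y) ≤ t / 2 * y :=
    mul_le_mul_of_nonneg_left hlog (by positivity)
  have h9 : (t : ℝ) * y ^ 2 ≤ (C + 1) ^ 2 := by
    have : y ^ 2 ≤ ((C + 1) / w) ^ 2 := pow_le_pow_left₀ hy0 hyw 2
    rw [div_pow, hw2, le_div_iff₀ ht0] at this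
    linarith
  have h10 : -(∑ i, b i ^ 2) / (2 * (1 + y)) = -((∑ i, b i ^ 2) / (2 * (1 + y))) := by ring
  rw [h10]
  have h11 : 0 ≤ (C + 1) ^ 2 := sq_nonneg _
  push_cast
  nlinarith only [h3, h4, h5, h7, h8, h9, h11]

/-- C1: a good projection, without losses -/
theorem pick_G' : ∃ c : ℝ, 0 < c ∧ ∃ t₀ : ℕ, ∀ t ≥ t₀, ∀ n : ℕ, Real.exp ((t : ℝ) ^ 3) ≤ n →
    ∀ K : Set (Fin n → ℝ), Convex ℝ K → IsCompact K → 0 < volume K →
    (∀ i j, ∫ x in K, x i * x j = if i = j then (volume K).toReal else 0) →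
    ∃ G : Matrix (Fin t) (Fin n) ℝ, ∀ b : Fin t → ℝ, ∑ i, b i ^ 2 ≤ 4 * t →
      c * (volume K).toReal * (1 / (t : ℝ) ^ 2) ^ t * Real.exp (-(max (∑ i, b i ^ 2) t) / 2) ≤
        ∫ x in K, Real.exp (-(∑ i, (G.mulVec x i - b i) ^ 2) * (t : ℝ) ^ 4 / 2) := by
  classical
  obtain ⟨c₀, C₀, hc₀, hC₀, t₁, hshell⟩ := window
  set c₁ : ℝ := c₀ * Real.exp (-(C₀ + 1) ^ 2) with hc₁
  have hc₁0 : 0 < c₁ := by positivity
  obtain ⟨t₀, hnum⟩ := pickG_num c₁ (1 / c₀ + 1) hc₁0 (by (clear * - hc₀; positivity))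
  refine ⟨c₁ / 2, by positivity, max t₀ (max t₁ (⌈C₀ ^ 2⌉₊ + 1)), ?_⟩
  intro t ht n hn K hKc hKk hKpos hiso
  obtain ⟨ht5, hn1, hn2⟩ := hnum t ((le_max_left _ _).trans ht)
  obtain ⟨ht16, hshell'⟩ := hshell t ((le_max_left _ _).trans ((le_max_right _ _).trans ht))
  have htC : C₀ ^ 2 ≤ (t : ℝ) := by
    have h1 : (⌈C₀ ^ 2⌉₊ : ℝ) ≤ t := by
      exact_mod_cast (Nat.le_succ _).trans ((le_max_right _ _).trans ((le_max_right _ _).trans ht))
    exact (Nat.le_ceil _).trans h1
  have ht1 : 1 ≤ t := by omega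
  have ht0 : (0 : ℝ) < t := by exact_mod_cast ht1
  have ht1' : (1 : ℝ) ≤ t := by exact_mod_cast ht1
  have hn0 : (0 : ℝ) < n := lt_of_lt_of_le (Real.exp_pos _) hn
  have hn1' : 1 ≤ n := by
    have : 0 < n := by exact_mod_cast hn0
    omega
  obtain ⟨s, hs1, hs2, hmass⟩ := hshell' n hn K hKc hKk hKpos hiso
  have hs0 : 0 < s := lt_of_lt_of_le hc₀ hs1
  set V : ℝ := (volume K).toReal with hV
  have hV0 : 0 < V := ENNReal.toReal_pos hKpos.ne' hKk.measure_lt_top.ne
  set S : Set (Fin n → ℝ) :=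
    {x ∈ K | s * n ≤ ∑ i, x i ^ 2 ∧ ∑ i, x i ^ 2 ≤ s * (1 + C₀ / Real.sqrt t) * n} with hS
  have hSK : S ⊆ K := fun x hx => hx.1
  have hSm : MeasurableSet S := shell_meas hKk _ _
  have hSfin : volume S < ⊤ := (measure_mono hSK).trans_lt hKk.measure_lt_top
  have : IsFiniteMeasure (volume.restrict S) := ⟨by rw [Measure.restrict_apply_univ]; exact hSfin⟩
  set a : ℝ := 1 / Real.sqrt (n * s) with ha
  have ha2 : a ^ 2 = 1 / (n * s) := by
    rw [ha, div_pow, Real.sq_sqrt (by (clear * - hn1' hs0; positivity)), one_pow]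
  set r : ℝ := 1 / (t : ℝ) ^ 2 with hr
  have hr0 : 0 < r := by positivity
  set k : (Fin t → ℝ) → (Fin n → ℝ) → (Fin t → EuclideanSpace ℝ (Fin n)) → ℝ :=
    fun b x γ => gker r b γ (sv a x) with hk
  have hkm : ∀ b, StronglyMeasurable (Function.uncurry (k b)) := by
    intro b
    have : Continuous (Function.uncurry (k b)) := by
      rw [hk]
      unfold gker Function.uncurry
      fun_prop
    exact this.stronglyMeasurable
  have hkb : ∀ b x γ, |k b x γ| ≤ 1 := fun b x γ => gker_abs_le_one _ _ _ _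
  set W : ℝ := t / r * (V * (Real.sqrt n * a ^ 2 + 1 / Real.sqrt n)) with hW
  have hW' : W = (t : ℝ) ^ 3 * (V * (1 / s + 1) / Real.sqrt n) := by
    rw [hW, ha2, hr]
    have hsq : 0 < Real.sqrt n := Real.sqrt_pos.mpr hn0
    have : (n : ℝ) = Real.sqrt n * Real.sqrt n := (Real.mul_self_sqrt hn0.le).symm
    field_simp
    rw [Real.sq_sqrt hn0.le]
    ring
  have hW0 : 0 ≤ W := by rw [hW']; (clear * - ht5 hV0 hs0 hn1'; positivity)
  have hcov : ∀ b, ∀ᵐ x ∂(volume.restrict S),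
      |∫ x' in S, (∫ γ, k b x γ * k b x' γ ∂(gm t n) -
        (∫ γ, k b x γ ∂(gm t n)) * (∫ γ, k b x' γ ∂(gm t n)))| ≤ W := by
    intro b
    exact Filter.Eventually.of_forall fun x => cov_bound hn1' K hKk hiso r a hr0 b S hSK x
  have hsm := fun b => second_moment (volume.restrict S) (gm t n) (k b) (hkm b) (hkb b) W (hcov b)
  -- mean
  set F : (Fin t → ℝ) → (Fin t → EuclideanSpace ℝ (Fin n)) → ℝ :=
    fun b γ => ∫ x in S, k b x γ with hF
  set M : (Fin t → ℝ) → ℝ := fun b => ∫ x in S, ∫ γ, k b x γ ∂(gm t n) with hM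
  set m₀ : ℝ := (1 / (t : ℝ) ^ 2) ^ t * Real.exp (-(C₀ + 1) ^ 2) with hm₀
  have hm₀0 : 0 < m₀ := by positivity
  have hmean : ∀ b : Fin t → ℝ,
      c₀ * V * (m₀ * Real.exp (-(max (∑ i, b i ^ 2) (t : ℝ)) / 2)) ≤ M b := by
    intro b
    have h1 : (m₀ * Real.exp (-(max (∑ i, b i ^ 2) t) / 2)) * (volume S).toReal ≤ M b := by
      have h2 : Integrable (fun x => ∫ γ, k b x γ ∂(gm t n)) (volume.restrict S) := by
        have h3 : Integrable (Function.uncurry (k b)) ((volume.restrict S).prod (gm t n)) :=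
          Integrable.of_bound (hkm b).aestronglyMeasurable 1
            (Filter.Eventually.of_forall fun p => by rw [Real.norm_eq_abs]; exact hkb _ _ _)
        exact h3.integral_prod_left
      have h4 : ∫ x in S, (m₀ * Real.exp (-(max (∑ i, b i ^ 2) t) / 2)) ≤ M b := by
        refine setIntegral_mono_on (integrableOn_const hSfin.ne) h2 hSm ?_
        intro x hx
        refine mean_lower' ht1 C₀ (by linarith) b _ ?_ ?_
        · rw [norm_scaled, ha2, div_mul_eq_mul_div, one_mul, le_div_iff₀ (by (clear * - hn1' hs0; positivity))]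
          linarith only [hx.2.1]
        · rw [norm_scaled, ha2, div_mul_eq_mul_div, one_mul, div_le_iff₀ (by (clear * - hn1' hs0; positivity))]
          linarith only [hx.2.2]
      rw [setIntegral_const, smul_eq_mul] at h4
      calc (m₀ * Real.exp (-(max (∑ i, b i ^ 2) t) / 2)) * (volume S).toReal
          = volume.real S * (m₀ * Real.exp (-(max (∑ i, b i ^ 2) t) / 2)) := by
            rw [mul_comm]; rfl
        _ ≤ M b := h4
    refine le_trans ?_ h1
    rw [mul_comm (m₀ * Real.exp (-(max (∑ i, b i ^ 2) (t : ℝ)) / 2))]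
    exact mul_le_mul_of_nonneg_right hmass (by positivity)
  -- the net
  set h : ℝ := 1 / (t : ℝ) ^ (4 * t) with hh
  have hh0 : 0 < h := by positivity
  set N₀ : ℤ := 2 * (t : ℤ) * (t : ℤ) ^ (4 * t) with hN₀
  set B : Finset (Fin t → ℤ) := Fintype.piFinset fun _ : Fin t => Finset.Icc (-N₀) N₀ with hB
  have hBcard : (B.card : ℝ) ≤ (t : ℝ) ^ ((4 * t + 2) * t) := net_card t ht5
  set pt : (Fin t → ℤ) → (Fin t → ℝ) := fun z i => h * z i with hpt
  -- the error level
  set e₀ : ℝ := 1 / 4 * (c₁ / t * ((1 / (t : ℝ) ^ 2) ^ t * Real.exp (-1) * Real.exp (-(2 * t))))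
    with he₀
  have he₀0 : 0 < e₀ := by positivity
  have hsum : Integrable (fun γ => ∑ z ∈ B, (F (pt z) γ - M (pt z)) ^ 2) (gm t n) :=
    integrable_finsetSum _ fun z _ => (hsm (pt z)).1
  obtain ⟨γ, hγ⟩ := exists_le_integral hsum
  have htot : ∑ z ∈ B, (F (pt z) γ - M (pt z)) ^ 2 ≤ (V * e₀) ^ 2 := by
    refine hγ.trans ?_
    rw [integral_finsetSum _ fun z _ => (hsm (pt z)).1]
    calc ∑ z ∈ B, ∫ γ, (F (pt z) γ - M (pt z)) ^ 2 ∂(gm t n)
        ≤ ∑ z ∈ B, W * (volume.restrict S).real Set.univ :=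
          Finset.sum_le_sum fun z _ => (hsm (pt z)).2
      _ = B.card * (W * (volume S).toReal) := by
          rw [Finset.sum_const, nsmul_eq_mul, measureReal_restrict_apply_univ]
          rfl
      _ ≤ (t : ℝ) ^ ((4 * t + 2) * t) * (W * V) := by
          refine mul_le_mul hBcard (mul_le_mul_of_nonneg_left ?_ hW0) (by (clear * - hW0 hV0; positivity))
            (by positivity)
          exact ENNReal.toReal_mono hKk.measure_lt_top.ne (measure_mono hSK)
      _ ≤ (t : ℝ) ^ ((4 * t + 2) * t) * (2 * (t : ℝ) ^ 3 * (1 / c₀ + 1) /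
            Real.exp ((t : ℝ) ^ 3 / 2)) * V ^ 2 := by
          rw [mul_assoc ((t : ℝ) ^ ((4 * t + 2) * t))]
          refine mul_le_mul_of_nonneg_left ?_ (by positivity)
          have h1 : Real.exp ((t : ℝ) ^ 3 / 2) ≤ Real.sqrt n := by
            apply Real.le_sqrt_of_sq_le
            rw [← Real.exp_nat_mul]
            refine le_trans (le_of_eq ?_) hn
            congr 1
            push_cast
            ring
          have h2 : 1 / s ≤ 1 / c₀ := one_div_le_one_div_of_le hc₀ hs1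
          have h3 : W * V = (t : ℝ) ^ 3 * (1 / s + 1) / Real.sqrt n * V ^ 2 := by
            rw [hW']; ring
          rw [h3]
          refine mul_le_mul_of_nonneg_right ?_ (by (clear * - hV0; positivity))
          apply div_le_div₀ (by positivity) _ (Real.exp_pos _) h1
          have h4 : (t : ℝ) ^ 3 * (1 / s + 1) ≤ (t : ℝ) ^ 3 * (1 / c₀ + 1) :=
            mul_le_mul_of_nonneg_left (by linarith) (by positivity)
          have h5 : 0 ≤ (t : ℝ) ^ 3 * (1 / c₀ + 1) := by positivity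
          linarith
      _ ≤ e₀ ^ 2 * V ^ 2 :=
          mul_le_mul_of_nonneg_right hn1 (by (clear * - hV0; positivity))
      _ = _ := by ring
  -- each point of the net is good
  have hgood : ∀ z ∈ B, M (pt z) - V * e₀ ≤ F (pt z) γ := by
    intro z hz
    have h1 : (F (pt z) γ - M (pt z)) ^ 2 ≤ (V * e₀) ^ 2 :=
      (Finset.single_le_sum (f := fun z => (F (pt z) γ - M (pt z)) ^ 2)
        (fun z _ => sq_nonneg _) hz).trans htot
    have h2 := abs_le_of_sq_le_sq' h1 (by positivity)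
    linarith only [h2]
  refine ⟨Matrix.of fun i j => a * γ i j, fun b hb => ?_⟩
  -- round b
  obtain ⟨z, hzB, hz1, hb'⟩ := net_round t ht1 b hb
  have hFi : ∀ b : Fin t → ℝ, Integrable (fun x => k b x γ) (volume.restrict S) := by
    intro b
    refine Integrable.of_bound (C := 1) ?_ (Filter.Eventually.of_forall fun x => by
      rw [Real.norm_eq_abs]; exact hkb _ _ _)
    exact ((hkm b).comp_measurable (measurable_prodMk_right (y := γ))).aestronglyMeasurable
  have hlip : |F b γ - F (pt z) γ| ≤ V * (t * h / r) := by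
    have h1 : F b γ - F (pt z) γ = ∫ x in S, (k b x γ - k (pt z) x γ) :=
      (integral_sub (hFi b) (hFi (pt z))).symm
    rw [h1, ← Real.norm_eq_abs]
    have h2 := norm_integral_le_of_norm_le_const (μ := volume.restrict S)
      (f := fun x => k b x γ - k (pt z) x γ) (C := t * h / r)
      (Filter.Eventually.of_forall fun x => by
        rw [Real.norm_eq_abs]
        exact gker_lip hr0 b (pt z) h hz1 γ _)
    refine h2.trans ?_
    rw [mul_comm, measureReal_restrict_apply_univ]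
    refine mul_le_mul_of_nonneg_right ?_ (by positivity)
    exact ENNReal.toReal_mono hKk.measure_lt_top.ne (measure_mono hSK)
  have hfin : ∫ x in S, k b x γ ≤ ∫ x in K, Real.exp (-(∑ i,
      ((Matrix.of fun i j => a * γ i j).mulVec x i - b i) ^ 2) * (t : ℝ) ^ 4 / 2) := by
    have heq : ∀ x, k b x γ = Real.exp (-(∑ i,
        ((Matrix.of fun i j => a * γ i j).mulVec x i - b i) ^ 2) * (t : ℝ) ^ 4 / 2) := by
      intro x
      rw [hk]
      simp only
      unfold gker
      congr 1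
      have h1 : ∀ i, inner ℝ (γ i) (sv a x) =
          (Matrix.of fun i j => a * γ i j).mulVec x i := by
        intro i
        simp only [sv]
        rw [inner_scaled, Matrix.mulVec, dotProduct, Finset.mul_sum]
        refine Finset.sum_congr rfl fun j _ => ?_
        rw [Matrix.of_apply]
        ring
      simp_rw [h1]
      rw [hr]
      (clear * - ht5; field_simp)
    simp_rw [← heq]
    refine setIntegral_mono_set ?_ (Filter.Eventually.of_forall fun x => gker_nonneg _ _ _ _)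
      (Filter.Eventually.of_forall hSK)
    refine ContinuousOn.integrableOn_compact hKk ?_
    have : Continuous (fun x => k b x γ) := by
      rw [hk]
      unfold gker
      fun_prop
    exact this.continuousOn
  refine le_trans ?_ hfin
  change _ ≤ F b γ
  have hg := hgood z hzB
  have hm := hmean (pt z)
  have hl := (abs_le.mp hlip).1
  set e : ℝ := Real.exp (-(max (∑ i, b i ^ 2) t) / 2) with he
  have hE : Real.exp (-(2 * t)) ≤ e := by
    apply Real.exp_le_exp.mpr
    have : max (∑ i, b i ^ 2) (t : ℝ) ≤ 4 * t := max_le hb (by linarith)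
    linarith only [this]
  have hE2 : e ≤ Real.exp (-(max (∑ i, (pt z) i ^ 2) t) / 2) := by
    apply Real.exp_le_exp.mpr
    have : max (∑ i, (pt z) i ^ 2) (t : ℝ) ≤ max (∑ i, b i ^ 2) t := max_le_max hb' le_rfl
    linarith only [this]
  have h1 : c₀ * V * (m₀ * e) ≤ M (pt z) :=
    le_trans (mul_le_mul_of_nonneg_left (mul_le_mul_of_nonneg_left hE2 hm₀0.le)
      (by positivity)) hm
  have hmain : c₀ * V * (m₀ * e) = V * (c₁ * ((1 / (t : ℝ) ^ 2) ^ t * e)) := by
    rw [hm₀, hc₁]; ring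
  have h2 : e₀ ≤ 1 / 4 * (c₁ * ((1 / (t : ℝ) ^ 2) ^ t * e)) := by
    rw [he₀]
    have e1 : Real.exp (-1) ≤ 1 := by rw [Real.exp_le_one_iff]; norm_num
    have e2 : c₁ / t ≤ c₁ := div_le_self hc₁0.le ht1'
    have e3 : (1 / (t : ℝ) ^ 2) ^ t * Real.exp (-1) * Real.exp (-(2 * t)) ≤
        (1 / (t : ℝ) ^ 2) ^ t * 1 * e := by gcongr
    rw [mul_one] at e3
    gcongr
  have h3 : V * e₀ ≤ 1 / 4 * (c₀ * V * (m₀ * e)) := by
    rw [hmain]
    have := mul_le_mul_of_nonneg_left h2 hV0.le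
    linarith
  have h4 : V * (t * h / r) ≤ 1 / 4 * (c₀ * V * (m₀ * e)) := by
    have : V * (t * h / r) ≤ V * e₀ := mul_le_mul_of_nonneg_left hn2 hV0.le
    linarith
  have h5 : c₁ / 2 * V * (1 / (t : ℝ) ^ 2) ^ t * e = 1 / 2 * (c₀ * V * (m₀ * e)) := by
    rw [hmain]; ring
  rw [h5]
  linarith only [hg, hl, h1, h3, h4]

end Vale.Agent.P230.C1
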