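import Mathlib

set_option linter.all false

namespace Vale.Agent.P230.C1

/-! ### elementary real analysis for the radial window -/

theorem log_le_neg_sq {y : ℝ} (hy : 0 < y) : Real.log y + 1 - y ≤ -(Real.sqrt y - 1) ^ 2 := by
  have h1 : Real.log y = 2 * Real.log (Real.sqrt y) := by
    rw [Real.log_sqrt hy.le]; ring
  have h2 := Real.log_le_sub_one_of_pos (Real.sqrt_pos.2 hy)
  have h3 := Real.sq_sqrt hy.le
  nlinarith only [h1, h2, h3]

theorem log_ge_neg_sq {y : ℝ} (hy : 1 / 2 ≤ y) : -(2 * (y - 1) ^ 2) ≤ Real.log y + 1 - y := by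
  have hy0 : 0 < y := by linarith
  have h1 := Real.one_sub_inv_le_log_of_pos hy0
  have h2 : y * y⁻¹ = 1 := mul_inv_cancel₀ hy0.ne'
  have h3 : y⁻¹ ≤ 2 := by
    rw [inv_le_comm₀ hy0 (by norm_num)]; linarith
  have h4 : 1 - y⁻¹ + 1 - y = -((y - 1) ^ 2 * y⁻¹) := by
    have : (y - 1) ^ 2 * y⁻¹ = y * (y * y⁻¹) - 2 * (y * y⁻¹) + y⁻¹ := by ring
    rw [this, h2]; ring
  have h5 : (y - 1) ^ 2 * y⁻¹ ≤ (y - 1) ^ 2 * 2 := mul_le_mul_of_nonneg_left h3 (sq_nonneg _)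
  linarith

/-- the normalised radial profile -/
noncomputable def psi (T ρ q : ℝ) : ℝ :=
  Real.exp (T / 2 * (Real.log (ρ ^ 2 / (q * T)) + 1 - ρ ^ 2 / (q * T)))

theorem psi_pos (T ρ q : ℝ) : 0 < psi T ρ q := Real.exp_pos _

theorem psi_eq {T ρ q : ℝ} (hT : 0 < T) (hρ : 0 < ρ) (hq : 0 < q) :
    (1 / q) ^ (T / 2) * Real.exp (-ρ ^ 2 / (2 * q)) =
      Real.exp (T / 2 * (Real.log T - 1) - T * Real.log ρ) * psi T ρ q := by
  unfold psi
  rw [Real.rpow_def_of_pos (by positivity), ← Real.exp_add, ← Real.exp_add]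
  congr 1
  rw [Real.log_div (by positivity) (by positivity), Real.log_div (by positivity) (by positivity),
    Real.log_mul hq.ne' hT.ne', Real.log_pow, Real.log_one]
  push_cast
  field_simp
  ring

theorem psi_upper {T ρ q : ℝ} (hT : 0 < T) (hρ : 0 < ρ) (hq : 0 < q) :
    psi T ρ q ≤ Real.exp (-(ρ - Real.sqrt (q * T)) ^ 2 / (2 * q)) := by
  unfold psi
  rw [Real.exp_le_exp]
  have hqT : 0 < q * T := by positivity
  have hy : 0 < ρ ^ 2 / (q * T) := by positivity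
  have h1 := log_le_neg_sq hy
  have h2 : Real.sqrt (ρ ^ 2 / (q * T)) = ρ / Real.sqrt (q * T) := by
    rw [Real.sqrt_div (by positivity), Real.sqrt_sq hρ.le]
  rw [h2] at h1
  set z := Real.sqrt (q * T) with hz
  have hz0 : 0 < z := Real.sqrt_pos.2 hqT
  have hz2 : z ^ 2 = q * T := Real.sq_sqrt hqT.le
  have h3 : T / 2 * (ρ / z - 1) ^ 2 = (ρ - z) ^ 2 / (2 * q) := by
    have : T = z ^ 2 / q := by rw [hz2]; field_simp
    rw [this]; field_simp
  calc T / 2 * (Real.log (ρ ^ 2 / (q * T)) + 1 - ρ ^ 2 / (q * T))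
      ≤ T / 2 * (-(ρ / z - 1) ^ 2) := mul_le_mul_of_nonneg_left h1 (by positivity)
    _ = -(T / 2 * (ρ / z - 1) ^ 2) := by ring
    _ = -(ρ - z) ^ 2 / (2 * q) := by rw [h3]; ring

theorem psi_le_one {T ρ q : ℝ} (hT : 0 < T) (hρ : 0 < ρ) (hq : 0 < q) : psi T ρ q ≤ 1 := by
  refine (psi_upper hT hρ hq).trans ?_
  rw [Real.exp_le_one_iff]
  exact div_nonpos_of_nonpos_of_nonneg (by have := sq_nonneg (ρ - Real.sqrt (q * T)); linarith)
    (by positivity)

theorem psi_lower {T ρ q : ℝ} (hT : 0 < T) (hq : 1 ≤ q) (h4 : 4 ≤ Real.sqrt (q * T))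
    (h1 : Real.sqrt (q * T) - 1 ≤ ρ) (h2 : ρ ≤ Real.sqrt (q * T)) :
    Real.exp (-4) ≤ psi T ρ q := by
  have hq0 : 0 < q := by linarith
  have hqT : 0 < q * T := by positivity
  set z := Real.sqrt (q * T) with hz
  have hz0 : 0 < z := by linarith
  have hz2 : z ^ 2 = q * T := Real.sq_sqrt hqT.le
  have hρ : 0 < ρ := by linarith
  set y := ρ ^ 2 / (q * T) with hy
  have hyz : y = (ρ / z) ^ 2 := by rw [hy, ← hz2, div_pow]
  have hu1 : 1 - 1 / z ≤ ρ / z := by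
    rw [le_div_iff₀ hz0, sub_mul, one_div_mul_cancel hz0.ne', one_mul]; exact h1
  have hu2 : ρ / z ≤ 1 := by rw [div_le_one hz0]; exact h2
  have hz4 : 1 / z ≤ 1 / 4 := one_div_le_one_div_of_le (by norm_num) h4
  have hzp : 0 < 1 / z := by positivity
  have hy12 : 1 / 2 ≤ y := by rw [hyz]; nlinarith only [hu1, hu2, hz4, hzp]
  have hy1 : (y - 1) ^ 2 ≤ (2 / z) ^ 2 := by
    have ha : y ≤ 1 := by rw [hyz]; nlinarith only [hu1, hu2, hz4, hzp]
    have hb : 1 - 2 / z ≤ y := by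
      rw [hyz]
      have : 2 / z = 2 * (1 / z) := by ring
      rw [this]
      nlinarith only [hu1, hu2, hz4, hzp]
    have hc : 0 < 2 / z := by positivity
    nlinarith only [ha, hb, hc]
  have h5 := log_ge_neg_sq hy12
  unfold psi
  rw [← hy, Real.exp_le_exp]
  have h6 : (2 / z) ^ 2 = 4 / (q * T) := by rw [div_pow, hz2]; norm_num
  rw [h6] at hy1
  have h7 : T / 2 * (2 * (4 / (q * T))) ≤ 4 := by
    have : T / 2 * (2 * (4 / (q * T))) = 4 / q := by field_simp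
    rw [this, div_le_iff₀ hq0]; linarith
  have h8 : T / 2 * (2 * (y - 1) ^ 2) ≤ T / 2 * (2 * (4 / (q * T))) := by gcongr
  have h9 : T / 2 * -(2 * (y - 1) ^ 2) ≤ T / 2 * (Real.log y + 1 - y) :=
    mul_le_mul_of_nonneg_left h5 (by positivity)
  linarith

/-- sums of two-sided geometric progressions -/
theorem geom_two_sided {q : ℝ} (hq0 : 0 ≤ q) (hq1 : q < 1) (m : ℕ) : ∀ J : ℕ,
    ∑ j ∈ Finset.range J, q ^ (((j : ℤ) - m).natAbs) ≤
      1 / (1 - q) + ∑ i ∈ Finset.range m, q ^ (i + 1) := by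
  induction m with
  | zero =>
    intro J
    simp only [Nat.cast_zero, sub_zero, Int.natAbs_natCast, Finset.range_zero, Finset.sum_empty,
      add_zero]
    rw [le_div_iff₀ (by linarith), geom_sum_mul_neg]
    have := pow_nonneg hq0 J
    linarith
  | succ m ih =>
    intro J
    cases J with
    | zero =>
      simp only [Finset.range_zero, Finset.sum_empty]
      have : 0 ≤ 1 / (1 - q) := by
        apply div_nonneg zero_le_one; linarith
      have h2 : 0 ≤ ∑ i ∈ Finset.range (m + 1), q ^ (i + 1) :=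
        Finset.sum_nonneg fun i _ => pow_nonneg hq0 _
      linarith
    | succ J =>
      rw [Finset.sum_range_succ', Finset.sum_range_succ]
      have h1 : ∀ j ∈ Finset.range J, q ^ ((((j + 1 : ℕ) : ℤ) - ((m + 1 : ℕ) : ℤ)).natAbs) =
          q ^ (((j : ℤ) - m).natAbs) := by
        intro j _
        congr 2
        push_cast; ring
      rw [Finset.sum_congr rfl h1]
      have h2 : ((((0 : ℕ) : ℤ) - ((m + 1 : ℕ) : ℤ)).natAbs) = m + 1 := by
        push_cast; omega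
      rw [h2]
      have := ih J
      linarith

theorem gauss_grid {κ : ℝ} (hκ : 0 < κ) : ∃ C : ℝ, 0 < C ∧ ∀ (J : ℕ) (x : ℝ), 0 ≤ x →
    ∑ j ∈ Finset.range J, Real.exp (-(κ * ((j : ℝ) - x) ^ 2)) ≤ C := by
  set q := Real.exp (-κ) with hq
  have hq0 : 0 < q := Real.exp_pos _
  have hq1 : q < 1 := by rw [hq, Real.exp_lt_one_iff]; linarith
  have h1q : 0 < 1 - q := by linarith
  refine ⟨Real.exp κ * (2 / (1 - q)), by positivity, fun J x hx => ?_⟩
  set m := ⌊x⌋₊ with hm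
  have hm1 : (m : ℝ) ≤ x := Nat.floor_le hx
  have hm2 : x < m + 1 := Nat.lt_floor_add_one x
  have hterm : ∀ j ∈ Finset.range J, Real.exp (-(κ * ((j : ℝ) - x) ^ 2)) ≤
      Real.exp κ * q ^ (((j : ℤ) - m).natAbs) := by
    intro j _
    set d := ((j : ℤ) - m).natAbs with hd
    have hdr : (d : ℝ) = |(j : ℝ) - m| := by
      rw [hd, Nat.cast_natAbs]; push_cast; rfl
    rw [hq, ← Real.exp_nat_mul, ← Real.exp_add, Real.exp_le_exp]
    have h1 : (d : ℝ) - 1 ≤ ((j : ℝ) - x) ^ 2 := by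
      rcases Nat.eq_zero_or_pos d with h0 | h0
      · rw [h0]; push_cast; nlinarith only [sq_nonneg ((j : ℝ) - x)]
      · have h0' : (1 : ℝ) ≤ d := by exact_mod_cast h0
        have h2 : (d : ℝ) - 1 ≤ |(j : ℝ) - x| := by
          rw [hdr]
          have : |(j : ℝ) - m| ≤ |(j : ℝ) - x| + |x - m| := by
            have := abs_sub_le (j : ℝ) x m
            exact this
          have h3 : |x - m| ≤ 1 := by rw [abs_le]; constructor <;> linarith
          linarith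
        have h3 : ((d : ℝ) - 1) ^ 2 ≤ ((j : ℝ) - x) ^ 2 := by
          rw [← sq_abs ((j : ℝ) - x)]
          exact pow_le_pow_left₀ (by linarith) h2 2
        have h4 : (d : ℝ) - 1 ≤ ((d : ℝ) - 1) ^ 2 := by
          obtain ⟨e, he⟩ : ∃ e : ℕ, d = e + 1 := ⟨d - 1, by omega⟩
          rw [he]; push_cast
          have : (e : ℝ) ≤ (e : ℝ) ^ 2 := by
            have : e ≤ e ^ 2 := Nat.le_self_pow two_ne_zero e
            exact_mod_cast this
          simpa using this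
        linarith
    nlinarith only [h1, hκ]
  calc _ ≤ ∑ j ∈ Finset.range J, Real.exp κ * q ^ (((j : ℤ) - m).natAbs) :=
        Finset.sum_le_sum hterm
    _ = Real.exp κ * ∑ j ∈ Finset.range J, q ^ (((j : ℤ) - m).natAbs) := by
        rw [Finset.mul_sum]
    _ ≤ Real.exp κ * (2 / (1 - q)) := by
        refine mul_le_mul_of_nonneg_left ?_ (Real.exp_pos _).le
        refine (geom_two_sided hq0.le hq1 m J).trans ?_
        have h2 : ∑ i ∈ Finset.range m, q ^ (i + 1) ≤ 1 / (1 - q) := by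
          have h3 : ∑ i ∈ Finset.range m, q ^ (i + 1) ≤ ∑ i ∈ Finset.range m, q ^ i := by
            refine Finset.sum_le_sum fun i _ => ?_
            rw [pow_succ]
            exact mul_le_of_le_one_right (pow_nonneg hq0.le _) hq1.le
          refine h3.trans ?_
          rw [le_div_iff₀ h1q, geom_sum_mul_neg]
          have := pow_nonneg hq0.le m
          linarith
        have h3 : 2 / (1 - q) = 1 / (1 - q) + 1 / (1 - q) := by ring
        rw [h3]; linarith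

/-- an approximately log-concave profile with Gaussian decay has a high peak -/
theorem peak {κ : ℝ} (hκ : 0 < κ) : ∃ c : ℝ, 0 < c ∧ ∀ (Ψ : ℝ → ℝ) (lo B A : ℝ) (J : ℕ),
    (∀ ρ ∈ Set.Icc lo (lo + J), 0 ≤ Ψ ρ ∧ Ψ ρ ≤ B) →
    (∀ ρ₁ ∈ Set.Icc lo (lo + J), ∀ ρ₂ ∈ Set.Icc lo (lo + J),
      Ψ ρ₁ * Ψ ρ₂ ≤ 2 * Ψ ((ρ₁ + ρ₂) / 2) ^ 2 * Real.exp (-(κ * (ρ₁ - ρ₂) ^ 2))) →
    0 < A → A ≤ ∑ j ∈ Finset.range (J + 1), Ψ (lo + j) →
    ∃ ρ₀ ∈ Set.Icc lo (lo + J), c * A ≤ Ψ ρ₀ := by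
  obtain ⟨C, hC, hgrid⟩ := gauss_grid hκ
  refine ⟨1 / (8 * C), by positivity, ?_⟩
  intro Ψ lo B A J hb hlc hA hsum
  set I := Set.Icc lo (lo + J) with hI
  have hJ0 : (0 : ℝ) ≤ J := Nat.cast_nonneg J
  have hmem : ∀ j ∈ Finset.range (J + 1), lo + (j : ℝ) ∈ I := by
    intro j hj
    rw [Finset.mem_range] at hj
    have h1 : (j : ℝ) ≤ J := by exact_mod_cast (by omega : j ≤ J)
    have h2 : (0 : ℝ) ≤ j := Nat.cast_nonneg j
    exact ⟨by linarith, by linarith⟩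
  have hbdd : BddAbove (Ψ '' I) := by
    refine ⟨B, ?_⟩
    rintro _ ⟨ρ, hρ, rfl⟩
    exact (hb ρ hρ).2
  have hne : (Ψ '' I).Nonempty := ⟨_, ⟨lo, ⟨le_rfl, by linarith⟩, rfl⟩⟩
  set S := sSup (Ψ '' I) with hS
  have hle : ∀ ρ ∈ I, Ψ ρ ≤ S := fun ρ hρ => le_csSup hbdd ⟨ρ, hρ, rfl⟩
  have hSpos : 0 < S := by
    by_contra hcon
    push Not at hcon
    have : ∑ j ∈ Finset.range (J + 1), Ψ (lo + j) ≤ 0 :=
      Finset.sum_nonpos fun j hj => (hle _ (hmem j hj)).trans hcon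
    linarith
  obtain ⟨_, ⟨ρ₀, hρ₀, rfl⟩, hρ₀S⟩ := exists_lt_of_lt_csSup hne (show S / 2 < S by linarith)
  refine ⟨ρ₀, hρ₀, ?_⟩
  have hterm : ∀ j ∈ Finset.range (J + 1), Ψ (lo + j) ≤
      4 * S * Real.exp (-(κ * ((j : ℝ) - (ρ₀ - lo)) ^ 2)) := by
    intro j hj
    have h1 := hlc ρ₀ hρ₀ _ (hmem j hj)
    have h2 : (ρ₀ + (lo + j)) / 2 ∈ I := by
      have h3 := hmem j hj
      exact ⟨by linarith [h3.1, hρ₀.1], by linarith [h3.2, hρ₀.2]⟩
    have h3 := hle _ h2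
    have h4 := (hb _ h2).1
    have h5 := (hb _ (hmem j hj)).1
    have h6 : Ψ ((ρ₀ + (lo + j)) / 2) ^ 2 ≤ S ^ 2 := pow_le_pow_left₀ h4 h3 2
    have h7 : (ρ₀ - (lo + j)) ^ 2 = ((j : ℝ) - (ρ₀ - lo)) ^ 2 := by ring
    rw [h7] at h1
    set e := Real.exp (-(κ * ((j : ℝ) - (ρ₀ - lo)) ^ 2)) with he
    have he0 : 0 < e := Real.exp_pos _
    have h8 : S / 2 * Ψ (lo + j) ≤ 2 * S ^ 2 * e := by
      calc S / 2 * Ψ (lo + j) ≤ Ψ ρ₀ * Ψ (lo + j) := mul_le_mul_of_nonneg_right hρ₀S.le h5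
        _ ≤ 2 * Ψ ((ρ₀ + (lo + j)) / 2) ^ 2 * e := h1
        _ ≤ 2 * S ^ 2 * e := by gcongr
    have h9 : S / 2 * Ψ (lo + j) ≤ S / 2 * (4 * S * e) := by
      refine h8.trans (le_of_eq ?_); ring
    exact le_of_mul_le_mul_left h9 (by linarith)
  have hx : 0 ≤ ρ₀ - lo := by linarith [hρ₀.1]
  have h1 : A ≤ 4 * S * C := by
    calc A ≤ ∑ j ∈ Finset.range (J + 1), Ψ (lo + j) := hsum
      _ ≤ ∑ j ∈ Finset.range (J + 1), 4 * S * Real.exp (-(κ * ((j : ℝ) - (ρ₀ - lo)) ^ 2)) :=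
          Finset.sum_le_sum hterm
      _ = 4 * S * ∑ j ∈ Finset.range (J + 1), Real.exp (-(κ * ((j : ℝ) - (ρ₀ - lo)) ^ 2)) := by
          rw [Finset.mul_sum]
      _ ≤ 4 * S * C := by
          refine mul_le_mul_of_nonneg_left (hgrid _ _ hx) (by positivity)
  have h2 : 1 / (8 * C) * A ≤ S / 2 := by
    rw [one_div, inv_mul_le_iff₀ (by positivity)]
    linarith
  linarith

end Vale.Agent.P230.C1
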