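import Vale.Agent.P230.H852.Facts
import Vale.Agent.P230.H852.Lift

/-!
P230, block G2, item (f): the entropy deficit of the folded discrete Gaussian.
-/

namespace Vale.Agent.P230.H706

open Finset Real Vale.Agent.P230.H852

variable {A : ℝ} {P : ℕ}

/-- the folding defect of the entropy -/
noncomputable def DD (A : ℝ) (P : ℕ) [NeZero P] : ℝ :=
  ∑ u : ZMod P, (q0 A u * Real.log (G A u / q0 A u) + q1 A u * Real.log (G A u / q1 A u))

/-- second moment -/
noncomputable def M2 (A : ℝ) (P : ℕ) : ℝ :=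
  (∑ k ∈ Finset.Ico (-(P : ℤ)) P, (del A P * k) ^ 2 * gs A P k) / NA A P

theorem log_q [NeZero P] (k : ℤ) :
    Real.log (gs A P k / NA A P) = -(del A P * k) ^ 2 / 2 - Real.log (NA A P) := by
  rw [Real.log_div (gs_pos k).ne' NA_pos.ne']
  simp only [gs, Real.log_exp]

theorem sum_q_log [NeZero P] :
    ∑ u : ZMod P, (q0 A u * Real.log (q0 A u) + q1 A u * Real.log (q1 A u))
      = -(1 / 2) * M2 A P - Real.log (NA A P) := by
  have h := sum_q (A := A) (P := P) (fun k => -(del A P * k) ^ 2 / 2 - Real.log (NA A P))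
  have h2 : ∀ u : ZMod P, q0 A u * Real.log (q0 A u) + q1 A u * Real.log (q1 A u)
      = q0 A u * (-(del A P * k0 u) ^ 2 / 2 - Real.log (NA A P))
        + q1 A u * (-(del A P * k1 u) ^ 2 / 2 - Real.log (NA A P)) := by
    intro u
    have e0 : Real.log (q0 A u) = _ := log_q (A := A) (k0 u)
    have e1 : Real.log (q1 A u) = _ := log_q (A := A) (k1 u)
    rw [e0, e1]
  rw [Finset.sum_congr rfl fun u _ => h2 u, h]
  have h3 : ∑ k ∈ Finset.Ico (-(P : ℤ)) P,
      (-(del A P * k) ^ 2 / 2 - Real.log (NA A P)) * gs A P k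
      = -(1 / 2) * (∑ k ∈ Finset.Ico (-(P : ℤ)) P, (del A P * k) ^ 2 * gs A P k)
        - Real.log (NA A P) * NA A P := by
    have e : (NA A P : ℝ) = ∑ k ∈ Finset.Ico (-(P : ℤ)) P, gs A P k := rfl
    conv_rhs => rw [show Real.log (NA A P) * NA A P
      = Real.log (NA A P) * ∑ k ∈ Finset.Ico (-(P : ℤ)) P, gs A P k from rfl]
    rw [Finset.mul_sum, Finset.mul_sum, ← Finset.sum_sub_distrib]
    refine Finset.sum_congr rfl fun k _ => ?_
    ring
  rw [h3, M2, sub_div, mul_div_assoc, mul_div_assoc, div_self NA_pos.ne', mul_one]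

theorem h1_eq [NeZero P] : h1 A P = (1 / 2) * M2 A P + Real.log (NA A P) - DD A P := by
  have h : ∑ u : ZMod P, G A u * Real.log (G A u)
      = DD A P + ∑ u : ZMod P, (q0 A u * Real.log (q0 A u) + q1 A u * Real.log (q1 A u)) := by
    rw [DD, ← Finset.sum_add_distrib]
    refine Finset.sum_congr rfl fun u _ => ?_
    rw [Real.log_div (G_pos u).ne' (q0_pos u).ne', Real.log_div (G_pos u).ne' (q1_pos u).ne']
    simp only [G]
    ring
  rw [h1, h, sum_q_log]
  ring

theorem HH_eq [NeZero P] (hA : 0 < A) :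
    HH A P = (1 / 2) * (1 - M2 A P) - Real.log (del A P * NA A P / Real.sqrt (2 * π)) + DD A P := by
  have hP : (0 : ℝ) < P := by exact_mod_cast NeZero.pos P
  have hd : 0 < del A P := div_pos hA hP
  have h2 : (0 : ℝ) < 2 * π := by positivity
  have h2e : (0 : ℝ) < 2 * π * Real.exp 1 := by positivity
  rw [HH, h1_eq, Real.log_div (Real.sqrt_pos.mpr h2e).ne' hd.ne', Real.log_sqrt h2e.le,
    Real.log_mul h2.ne' (Real.exp_pos 1).ne', Real.log_exp,
    Real.log_div (mul_pos hd NA_pos).ne' (Real.sqrt_pos.mpr h2).ne',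
    Real.log_mul hd.ne' NA_pos.ne', Real.log_sqrt h2.le]
  ring

theorem log_one_add_exp_le (s : ℝ) : Real.log (1 + Real.exp (2 * s)) ≤ 2 * Real.exp s := by
  rw [Real.log_le_iff_le_exp (by positivity)]
  have h1 := Real.quadratic_le_exp_of_nonneg (show (0 : ℝ) ≤ 2 * Real.exp s by positivity)
  have h2 : Real.exp (2 * s) = Real.exp s ^ 2 := by rw [← Real.exp_nat_mul]; norm_num
  rw [h2]
  nlinarith [Real.exp_pos s]

theorem k1_eq [NeZero P] (u : ZMod P) :
    del A P * (k1 u : ℝ) = del A P * (k0 u : ℝ) - A := by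
  have hP : (P : ℝ) ≠ 0 := Nat.cast_ne_zero.mpr (NeZero.ne P)
  simp only [k1, k0, del]
  push_cast
  field_simp

/-- one term of the defect is at most `4 e^{-A²/8} / N` -/
theorem term_le [NeZero P] (u : ZMod P) :
    q0 A u * Real.log (G A u / q0 A u) + q1 A u * Real.log (G A u / q1 A u)
      ≤ 4 * Real.exp (-A ^ 2 / 8) / NA A P := by
  set x : ℝ := del A P * (k0 u : ℝ) with hx
  have hx1 : del A P * (k1 u : ℝ) = x - A := k1_eq u
  have e0 : q0 A u = Real.exp (-x ^ 2 / 2) / NA A P := rfl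
  have e1 : q1 A u = Real.exp (-(x - A) ^ 2 / 2) / NA A P := by
    rw [← hx1]; rfl
  set e : ℝ := Real.exp (-(x ^ 2 + (x - A) ^ 2) / 4) / NA A P with he
  set s : ℝ := (x ^ 2 - (x - A) ^ 2) / 4 with hs
  have f0 : q0 A u = e * Real.exp (-s) := by
    rw [e0, he, div_mul_eq_mul_div, ← Real.exp_add]
    congr 2
    rw [hs]; ring
  have f1 : q1 A u = e * Real.exp s := by
    rw [e1, he, div_mul_eq_mul_div, ← Real.exp_add]
    congr 2
    rw [hs]; ring
  have he0 : 0 < e := div_pos (Real.exp_pos _) NA_pos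
  have g0 : G A u / q0 A u = 1 + Real.exp (2 * s) := by
    rw [G, add_div, div_self (q0_pos u).ne', f0, f1, mul_div_mul_left _ _ he0.ne', ← Real.exp_sub]
    congr 2
    ring
  have g1 : G A u / q1 A u = 1 + Real.exp (2 * (-s)) := by
    rw [G, add_div, div_self (q1_pos u).ne', f0, f1, mul_div_mul_left _ _ he0.ne', ← Real.exp_sub,
      add_comm]
    congr 2
    ring
  rw [g0, g1, f0, f1]
  have b0 := log_one_add_exp_le s
  have b1 := log_one_add_exp_le (-s)
  have c0 : e * Real.exp (-s) * Real.log (1 + Real.exp (2 * s)) ≤ 2 * e := by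
    calc e * Real.exp (-s) * Real.log (1 + Real.exp (2 * s))
        ≤ e * Real.exp (-s) * (2 * Real.exp s) :=
          mul_le_mul_of_nonneg_left b0 (by positivity)
      _ = 2 * e * (Real.exp (-s) * Real.exp s) := by ring
      _ = 2 * e := by rw [← Real.exp_add]; simp
  have c1 : e * Real.exp s * Real.log (1 + Real.exp (2 * (-s))) ≤ 2 * e := by
    calc e * Real.exp s * Real.log (1 + Real.exp (2 * (-s)))
        ≤ e * Real.exp s * (2 * Real.exp (-s)) :=
          mul_le_mul_of_nonneg_left b1 (by positivity)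
      _ = 2 * e * (Real.exp s * Real.exp (-s)) := by ring
      _ = 2 * e := by rw [← Real.exp_add]; simp
  have d : e ≤ Real.exp (-A ^ 2 / 8) / NA A P := by
    rw [he]
    refine div_le_div_of_nonneg_right ?_ NA_pos.le
    apply Real.exp_le_exp.mpr
    nlinarith [sq_nonneg (x - A / 2)]
  calc _ ≤ 2 * e + 2 * e := add_le_add c0 c1
    _ = 4 * e := by ring
    _ ≤ 4 * (Real.exp (-A ^ 2 / 8) / NA A P) := mul_le_mul_of_nonneg_left d (by norm_num)
    _ = _ := by ring

theorem term_nonneg [NeZero P] (u : ZMod P) :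
    0 ≤ q0 A u * Real.log (G A u / q0 A u) + q1 A u * Real.log (G A u / q1 A u) := by
  have h0 : 1 ≤ G A u / q0 A u := by
    rw [one_le_div (q0_pos u)]; simp only [G]; linarith [q1_pos (A := A) u]
  have h1 : 1 ≤ G A u / q1 A u := by
    rw [one_le_div (q1_pos u)]; simp only [G]; linarith [q0_pos (A := A) u]
  exact add_nonneg (mul_nonneg (q0_pos u).le (Real.log_nonneg h0))
    (mul_nonneg (q1_pos u).le (Real.log_nonneg h1))

/-- one term of the defect close to the balanced point -/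
theorem term_ge [NeZero P] (u : ZMod P) (hA : 1 ≤ A) (h0 : A / 2 ≤ del A P * (u.val : ℝ))
    (h1 : del A P * (u.val : ℝ) ≤ A / 2 + 1 / A) :
    Real.exp (-A ^ 2 / 8 - 1) / NA A P / 2
      ≤ q0 A u * Real.log (G A u / q0 A u) + q1 A u * Real.log (G A u / q1 A u) := by
  set x : ℝ := del A P * (k0 u : ℝ) with hx
  have hxv : del A P * (u.val : ℝ) = x := by rw [hx]; simp [k0]
  rw [hxv] at h0 h1
  have hx1 : del A P * (k1 u : ℝ) = x - A := k1_eq u
  have e0 : q0 A u = Real.exp (-x ^ 2 / 2) / NA A P := rfl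
  have e1 : q1 A u = Real.exp (-(x - A) ^ 2 / 2) / NA A P := by
    rw [← hx1]; rfl
  have hA0 : 0 < A := by linarith
  have hinv : A * (1 / A) = 1 := by field_simp
  have hinv1 : 1 / A ≤ 1 := by rw [div_le_one hA0]; exact hA
  have hinv0 : 0 < 1 / A := by positivity
  have hq : q0 A u ≤ q1 A u := by
    rw [e0, e1]
    refine div_le_div_of_nonneg_right (Real.exp_le_exp.mpr ?_) NA_pos.le
    nlinarith
  have hlow : Real.exp (-A ^ 2 / 8 - 1) / NA A P ≤ q0 A u := by
    rw [e0]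
    refine div_le_div_of_nonneg_right (Real.exp_le_exp.mpr ?_) NA_pos.le
    have hx0 : 0 ≤ x := by linarith
    have : x ^ 2 ≤ (A / 2 + 1 / A) ^ 2 := by
      apply pow_le_pow_left₀ hx0 h1
    nlinarith
  have hlog0 : (1 / 2 : ℝ) ≤ Real.log (G A u / q0 A u) := by
    have h2 : (2 : ℝ) ≤ G A u / q0 A u := by
      rw [le_div_iff₀ (q0_pos u)]
      simp only [G]; linarith
    have h3 := Real.log_two_gt_d9
    have h4 := Real.log_le_log (by norm_num) h2
    linarith
  have hlog1 : 0 ≤ Real.log (G A u / q1 A u) := by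
    apply Real.log_nonneg
    rw [one_le_div (q1_pos u)]; simp only [G]; linarith [q0_pos (A := A) u]
  have t1 : 0 ≤ q1 A u * Real.log (G A u / q1 A u) := mul_nonneg (q1_pos u).le hlog1
  have t0 : Real.exp (-A ^ 2 / 8 - 1) / NA A P * (1 / 2) ≤ q0 A u * Real.log (G A u / q0 A u) :=
    mul_le_mul hlow hlog0 (by norm_num) (q0_pos u).le
  linarith

theorem DD_le [NeZero P] : DD A P ≤ P * (4 * Real.exp (-A ^ 2 / 8) / NA A P) := by
  rw [DD]
  calc _ ≤ ∑ u : ZMod P, 4 * Real.exp (-A ^ 2 / 8) / NA A P :=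
        Finset.sum_le_sum fun u _ => term_le u
    _ = _ := by
        rw [Finset.sum_const, Finset.card_univ, ZMod.card, nsmul_eq_mul]

theorem DD_ge [NeZero P] (hA : 2 ≤ A) (hP : 4 * A ^ 2 ≤ P) :
    P / (4 * A ^ 2) * (Real.exp (-A ^ 2 / 8 - 1) / NA A P / 2) ≤ DD A P := by
  classical
  have hP0 : (0 : ℝ) < P := by exact_mod_cast NeZero.pos P
  have hA0 : 0 < A := by linarith
  set c : ℝ := Real.exp (-A ^ 2 / 8 - 1) / NA A P / 2 with hc
  have hc0 : 0 < c := by
    have := NA_pos (A := A) (P := P)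
    positivity
  set m : ℕ := ⌊(P : ℝ) / (2 * A ^ 2)⌋₊ with hm
  set a : ℕ := P / 2 + 1 with ha
  have hm1 : (m : ℝ) ≤ P / (2 * A ^ 2) := Nat.floor_le (by positivity)
  have hm2 : (P : ℝ) / (2 * A ^ 2) < m + 1 := Nat.lt_floor_add_one _
  have hPA : (2 : ℝ) ≤ P / (2 * A ^ 2) := by
    rw [le_div_iff₀ (by positivity)]; linarith
  have hhalf : (P : ℝ) / (2 * A ^ 2) * 2 = P / A ^ 2 := by field_simp
  have hPA2 : (P : ℝ) / A ^ 2 ≤ P / 4 := by
    apply div_le_div_of_nonneg_left hP0.le (by norm_num) (by nlinarith)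
  have ha1 : (P : ℝ) / 2 ≤ a := by
    have : P ≤ 2 * (P / 2 + 1) := by omega
    have h2 : (P : ℝ) ≤ 2 * ((P / 2 + 1 : ℕ) : ℝ) := by exact_mod_cast this
    rw [ha]; linarith
  have ha2 : (a : ℝ) ≤ P / 2 + 1 := by
    have : 2 * (P / 2 + 1) ≤ P + 2 := by omega
    have h2 : 2 * ((P / 2 + 1 : ℕ) : ℝ) ≤ (P : ℝ) + 2 := by exact_mod_cast this
    rw [ha]; linarith
  have hsub : Finset.Ico a (a + m) ⊆ Finset.range P := by
    intro i hi
    rw [Finset.mem_Ico] at hi
    rw [Finset.mem_range]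
    have h1 : ((a + m : ℕ) : ℝ) ≤ P := by
      push_cast
      nlinarith
    have h2 : a + m ≤ P := by exact_mod_cast h1
    omega
  have hkey : ∀ u : ZMod P, (if u.val ∈ Finset.Ico a (a + m) then c else 0)
      ≤ q0 A u * Real.log (G A u / q0 A u) + q1 A u * Real.log (G A u / q1 A u) := by
    intro u
    split_ifs with h
    · rw [Finset.mem_Ico] at h
      have l1 : (a : ℝ) ≤ u.val := by exact_mod_cast h.1
      have l2 : (u.val : ℝ) + 1 ≤ a + m := by
        have : u.val + 1 ≤ a + m := h.2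
        exact_mod_cast this
      have e1 : del A P * (u.val : ℝ) = A / 2 + A / P * (u.val - P / 2) := by
        simp only [del]; field_simp; ring
      have hAP : 0 < A / P := by positivity
      apply term_ge u (by linarith)
      · rw [e1]
        have : 0 ≤ A / P * ((u.val : ℝ) - P / 2) := mul_nonneg hAP.le (by linarith)
        linarith
      · rw [e1]
        have h3 : (u.val : ℝ) - P / 2 ≤ P / A ^ 2 := by linarith
        have h4 : A / P * ((u.val : ℝ) - P / 2) ≤ A / P * (P / A ^ 2) :=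
          mul_le_mul_of_nonneg_left h3 hAP.le
        have h5 : A / P * (P / A ^ 2) = 1 / A := by field_simp
        linarith
    · exact term_nonneg u
  calc (P : ℝ) / (4 * A ^ 2) * c ≤ m * c := by
        refine mul_le_mul_of_nonneg_right ?_ hc0.le
        have : (P : ℝ) / (4 * A ^ 2) = P / (2 * A ^ 2) / 2 := by field_simp; norm_num
        rw [this]
        linarith
    _ = ∑ i ∈ range P, (if i ∈ Finset.Ico a (a + m) then c else 0) := by
        rw [← Finset.sum_filter, Finset.filter_mem_eq_inter, Finset.inter_eq_right.mpr hsub,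
          Finset.sum_const, Nat.card_Ico, nsmul_eq_mul]
        congr 2
        omega
    _ = ∑ u : ZMod P, (if u.val ∈ Finset.Ico a (a + m) then c else 0) := by
        rw [← sum_val (P := P) (fun i => if i ∈ Finset.Ico a (a + m) then c else 0)]
    _ ≤ DD A P := Finset.sum_le_sum fun u _ => hkey u

/-- smallness of `E = e^{-A²/8}` -/
theorem E_small (hA : 20 ≤ A) :
    576 * A ^ 3 * Real.exp (-A ^ 2 / 8) ^ 3 ≤ 1 ∧ Real.exp (-A ^ 2 / 8) ≤ 1 ∧
      Real.exp (-A ^ 2 / 8) ^ 4 ≤ 1 / 4 ∧ Real.exp (-A ^ 2 / 8) ^ 4 ≤ Real.exp (-A ^ 2 / 8) := by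
  have hA0 : 0 < A := by linarith
  set E : ℝ := Real.exp (-A ^ 2 / 8) with hE
  have hE0 : 0 < E := Real.exp_pos _
  have hEbig : 576 * A ^ 3 * E ^ 3 ≤ 1 := by
    have h1 : Real.exp (A ^ 2 * (3 / 8)) * E ^ 3 = 1 := by
      rw [hE, ← Real.exp_nat_mul, ← Real.exp_add]
      rw [show A ^ 2 * (3 / 8) + ((3 : ℕ) : ℝ) * (-A ^ 2 / 8) = 0 by push_cast; ring, Real.exp_zero]
    have h2 : 576 * A ^ 3 ≤ Real.exp (A ^ 2 * (3 / 8)) := by
      have h3 := Real.sum_le_exp_of_nonneg (show (0 : ℝ) ≤ A ^ 2 * (3 / 8) by positivity) 5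
      simp only [Finset.sum_range_succ, Finset.sum_range_zero, Nat.factorial] at h3
      norm_num at h3
      have h4 : 576 * A ^ 3 ≤ (A ^ 2 * (3 / 8)) ^ 4 / 24 := by
        have h5 : (20 : ℝ) ^ 5 ≤ A ^ 5 := pow_le_pow_left₀ (by norm_num) hA 5
        have h6 : (A ^ 2 * (3 / 8)) ^ 4 / 24 = A ^ 3 * (A ^ 5 * (81 / 98304)) := by ring
        rw [h6]
        have h7 : 0 < A ^ 3 := by positivity
        nlinarith
      have h8 : 0 ≤ A ^ 2 * (3 / 8) := by positivity
      have h9 : 0 ≤ (A ^ 2 * (3 / 8)) ^ 2 / 2 := by positivity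
      have h10 : 0 ≤ (A ^ 2 * (3 / 8)) ^ 3 / 6 := by positivity
      linarith
    calc 576 * A ^ 3 * E ^ 3 ≤ Real.exp (A ^ 2 * (3 / 8)) * E ^ 3 :=
          mul_le_mul_of_nonneg_right h2 (by positivity)
      _ = 1 := h1
  have hEle : E ≤ 1 := by rw [hE]; apply Real.exp_le_one_iff.mpr; nlinarith
  have hE3 : E ^ 3 ≤ 1 / 4 := by
    have : (1 : ℝ) ≤ A ^ 3 := one_le_pow₀ (by linarith)
    have h0 : 0 < E ^ 3 := by positivity
    nlinarith
  have hE4 : E ^ 4 ≤ 1 / 4 := by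
    calc E ^ 4 = E ^ 3 * E := by ring
      _ ≤ 1 / 4 * 1 := mul_le_mul hE3 hEle hE0.le (by norm_num)
      _ = 1 / 4 := by norm_num
  refine ⟨hEbig, hEle, hE4, ?_⟩
  calc E ^ 4 = E ^ 3 * E := by ring
    _ ≤ 1 * E := mul_le_mul_of_nonneg_right (by linarith) hE0.le
    _ = E := one_mul _

/-- consequences of the normalisation -/
theorem norm_cons [NeZero P] (hA : 20 ≤ A)
    (norm_lo : 1 - 2 * Real.exp (-A ^ 2 / 2) ≤ del A P * NA A P / Real.sqrt (2 * π))
    (norm_hi : del A P * NA A P / Real.sqrt (2 * π) ≤ 1 + Real.exp (-A ^ 2)) :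
    Real.log (del A P * NA A P / Real.sqrt (2 * π)) ≤ Real.exp (-A ^ 2 / 8) ^ 4 ∧
    -(4 * Real.exp (-A ^ 2 / 8) ^ 4) ≤ Real.log (del A P * NA A P / Real.sqrt (2 * π)) ∧
    (P : ℝ) / NA A P ≤ A ∧ A / 3 ≤ (P : ℝ) / NA A P := by
  have hA0 : 0 < A := by linarith
  have hP0 : (0 : ℝ) < P := by exact_mod_cast NeZero.pos P
  have hN := NA_pos (A := A) (P := P)
  obtain ⟨hEbig, hEle, hE4, hE4'⟩ := E_small hA
  set E : ℝ := Real.exp (-A ^ 2 / 8) with hE
  have hE0 : 0 < E := Real.exp_pos _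
  have hE2 : Real.exp (-A ^ 2 / 2) = E ^ 4 := by
    rw [hE, ← Real.exp_nat_mul]; congr 1; push_cast; ring
  have hE1 : Real.exp (-A ^ 2) = E ^ 8 := by
    rw [hE, ← Real.exp_nat_mul]; congr 1; push_cast; ring
  have hE8 : E ^ 8 ≤ E ^ 4 := pow_le_pow_of_le_one hE0.le hEle (by norm_num)
  rw [hE2] at norm_lo
  rw [hE1] at norm_hi
  set r : ℝ := del A P * NA A P / Real.sqrt (2 * π) with hr
  have hs0 : 0 < Real.sqrt (2 * π) := Real.sqrt_pos.mpr (by positivity)
  have hr0 : 0 < r := by linarith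
  have hpi := Real.pi_gt_three
  have hpi2 := Real.pi_lt_d2
  have hs1 : 2 ≤ Real.sqrt (2 * π) := by
    apply Real.le_sqrt_of_sq_le; linarith
  have hs2 : Real.sqrt (2 * π) ≤ 2.52 := by
    rw [show (2.52 : ℝ) = Real.sqrt (2.52 ^ 2) by rw [Real.sqrt_sq (by norm_num)]]
    apply Real.sqrt_le_sqrt; norm_num at hpi2 ⊢; linarith
  -- log r
  have hlog1 : Real.log r ≤ E ^ 4 := by
    have := Real.log_le_sub_one_of_pos hr0
    linarith
  have hlog2 : -(4 * E ^ 4) ≤ Real.log r := by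
    have h1 := Real.one_sub_inv_le_log_of_pos hr0
    have h2 : r⁻¹ ≤ 1 + 4 * E ^ 4 := by
      rw [inv_le_comm₀ hr0 (by positivity)]
      refine le_trans ?_ norm_lo
      rw [inv_eq_one_div, div_le_iff₀ (by positivity)]
      nlinarith [hE4, pow_pos hE0 4]
    linarith
  -- P / N
  have hdel : del A P = A / P := rfl
  have hrN : r * Real.sqrt (2 * π) = A / P * NA A P := by
    rw [hr, ← hdel, div_mul_cancel₀ _ hs0.ne']
  have h2 : A / P * NA A P * P = A * NA A P := by field_simp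
  refine ⟨hlog1, hlog2, ?_, ?_⟩
  · rw [div_le_iff₀ hN]
    have h1 : (1 : ℝ) ≤ A / P * NA A P := by
      rw [← hrN]
      nlinarith
    rw [← h2]
    calc (P : ℝ) = 1 * P := (one_mul _).symm
      _ ≤ _ := mul_le_mul_of_nonneg_right h1 hP0.le
  · rw [le_div_iff₀ hN]
    have h1 : A / P * NA A P ≤ 3 := by
      rw [← hrN]
      have h8 : E ^ 8 ≤ 1 / 16 := by
        calc E ^ 8 = E ^ 4 * E ^ 4 := by ring
          _ ≤ 1 / 4 * (1 / 4) := mul_le_mul hE4 hE4 (by positivity) (by norm_num)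
          _ = 1 / 16 := by norm_num
      have : r ≤ 1.1 := by linarith
      calc r * Real.sqrt (2 * π) ≤ 1.1 * 2.52 :=
            mul_le_mul this hs2 hs0.le (by norm_num)
        _ ≤ 3 := by norm_num
    have h3 := mul_le_mul_of_nonneg_right h1 hP0.le
    rw [h2] at h3
    linarith

theorem ent_lo [NeZero P] (hA : 20 ≤ A) (hP : 4 * A ^ 2 ≤ P)
    (norm_lo : 1 - 2 * Real.exp (-A ^ 2 / 2) ≤ del A P * NA A P / Real.sqrt (2 * π))
    (norm_hi : del A P * NA A P / Real.sqrt (2 * π) ≤ 1 + Real.exp (-A ^ 2))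
    (mom2 : |(∑ k ∈ Finset.Ico (-(P : ℤ)) P, (del A P * k) ^ 2 * gs A P k) / NA A P - 1|
      ≤ 2 * A ^ 2 * Real.exp (-A ^ 2 / 2)) :
    1 / 144 * Real.exp (-A ^ 2 / 8) / A ≤ HH A P := by
  have hA0 : 0 < A := by linarith
  have hP0 : (0 : ℝ) < P := by exact_mod_cast NeZero.pos P
  obtain ⟨hEbig, hEle, hE4, hE4'⟩ := E_small hA
  obtain ⟨hlog1, hlog2, hPN1, hPN2⟩ := norm_cons hA norm_lo norm_hi
  have hDge := DD_ge (A := A) (P := P) (by linarith) hP
  have hN := NA_pos (A := A) (P := P)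
  rw [HH_eq hA0]
  have hM : |M2 A P - 1| ≤ 2 * A ^ 2 * Real.exp (-A ^ 2 / 2) := mom2
  have hE2 : Real.exp (-A ^ 2 / 2) = Real.exp (-A ^ 2 / 8) ^ 4 := by
    rw [← Real.exp_nat_mul]; congr 1; push_cast; ring
  rw [hE2] at hM
  obtain ⟨hM1, hM2⟩ := abs_le.mp hM
  have h2 : Real.exp (-A ^ 2 / 8) / 3 ≤ Real.exp (-A ^ 2 / 8 - 1) := by
    rw [Real.exp_sub]
    exact div_le_div_of_nonneg_left (Real.exp_pos _).le (Real.exp_pos 1)
      (by have := Real.exp_one_lt_d9; linarith)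
  generalize Real.exp (-A ^ 2 / 8 - 1) = E' at *
  have hE0 : 0 < Real.exp (-A ^ 2 / 8) := Real.exp_pos _
  generalize Real.exp (-A ^ 2 / 8) = E at *
  have hD : E / (72 * A) ≤ DD A P := by
    refine le_trans ?_ hDge
    have h1 : (P : ℝ) / (4 * A ^ 2) * (E' / NA A P / 2)
        = (P : ℝ) / NA A P * (E' / (8 * A ^ 2)) := by
      field_simp; ring
    rw [h1]
    calc E / (72 * A) = A / 3 * (E / 3 / (8 * A ^ 2)) := by field_simp; norm_num
      _ ≤ (P : ℝ) / NA A P * (E' / (8 * A ^ 2)) := by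
          apply mul_le_mul hPN2 _ (by positivity) (by positivity)
          exact div_le_div_of_nonneg_right h2 (by positivity)
  have hsmall : 2 * A ^ 2 * E ^ 4 ≤ E / (144 * A) := by
    rw [le_div_iff₀ (by positivity)]
    have h3 := mul_le_mul_of_nonneg_right hEbig hE0.le
    have h4 : 2 * A ^ 2 * E ^ 4 * (144 * A) = (576 * A ^ 3 * E ^ 3 * E) / 2 := by ring
    rw [h4]
    linarith
  have hA1 : E ^ 4 ≤ A ^ 2 * E ^ 4 := by
    have h1 : (1 : ℝ) ≤ A ^ 2 := one_le_pow₀ (by linarith)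
    have h3 := mul_le_mul_of_nonneg_right h1 (pow_pos hE0 4).le
    linarith
  have heq : E / (72 * A) - E / (144 * A) = 1 / 144 * E / A := by field_simp; norm_num
  linarith

theorem ent_hi [NeZero P] (hA : 20 ≤ A)
    (norm_lo : 1 - 2 * Real.exp (-A ^ 2 / 2) ≤ del A P * NA A P / Real.sqrt (2 * π))
    (norm_hi : del A P * NA A P / Real.sqrt (2 * π) ≤ 1 + Real.exp (-A ^ 2))
    (mom2 : |(∑ k ∈ Finset.Ico (-(P : ℤ)) P, (del A P * k) ^ 2 * gs A P k) / NA A P - 1|
      ≤ 2 * A ^ 2 * Real.exp (-A ^ 2 / 2)) :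
    HH A P ≤ 9 * A ^ 2 * Real.exp (-A ^ 2 / 8) := by
  have hA0 : 0 < A := by linarith
  have hP0 : (0 : ℝ) < P := by exact_mod_cast NeZero.pos P
  obtain ⟨hEbig, hEle, hE4, hE4'⟩ := E_small hA
  obtain ⟨hlog1, hlog2, hPN1, hPN2⟩ := norm_cons hA norm_lo norm_hi
  have hDle := DD_le (A := A) (P := P)
  have hN := NA_pos (A := A) (P := P)
  rw [HH_eq hA0]
  have hM : |M2 A P - 1| ≤ 2 * A ^ 2 * Real.exp (-A ^ 2 / 2) := mom2
  have hE2 : Real.exp (-A ^ 2 / 2) = Real.exp (-A ^ 2 / 8) ^ 4 := by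
    rw [← Real.exp_nat_mul]; congr 1; push_cast; ring
  rw [hE2] at hM
  obtain ⟨hM1, hM2⟩ := abs_le.mp hM
  have hE0 : 0 < Real.exp (-A ^ 2 / 8) := Real.exp_pos _
  generalize Real.exp (-A ^ 2 / 8) = E at *
  have hD : DD A P ≤ 4 * A * E := by
    refine le_trans hDle ?_
    calc (P : ℝ) * (4 * E / NA A P) = (P : ℝ) / NA A P * (4 * E) := by ring
      _ ≤ A * (4 * E) := mul_le_mul_of_nonneg_right hPN1 (by positivity)
      _ = 4 * A * E := by ring
  have hA1 : A ≤ A ^ 2 := by nlinarith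
  have hA2 : 1 ≤ A ^ 2 := by nlinarith
  have i1 : A ^ 2 * E ^ 4 ≤ A ^ 2 * E := mul_le_mul_of_nonneg_left hE4' (by positivity)
  have i2 : A * E ≤ A ^ 2 * E := mul_le_mul_of_nonneg_right hA1 hE0.le
  have i3 : 1 * E ≤ A ^ 2 * E := mul_le_mul_of_nonneg_right hA2 hE0.le
  linarith

end Vale.Agent.P230.H706
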