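import Vale.Agent.P230.Bdl.B3
import Vale.Agent.P230.H706.Elem

set_option linter.all false

namespace Vale.Agent.P230.C1

open MeasureTheory ProbabilityTheory
open scoped ENNReal

/-- the scaled point -/
noncomputable abbrev sv {n : ℕ} (a : ℝ) (x : Fin n → ℝ) : EuclideanSpace ℝ (Fin n) :=
  a • WithLp.toLp 2 x

/-- the law of a Gaussian matrix -/
noncomputable abbrev gm (t n : ℕ) : Measure (Fin t → EuclideanSpace ℝ (Fin n)) :=
  Measure.pi fun _ : Fin t => stdGaussian (EuclideanSpace ℝ (Fin n))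

/-- covariance bound, any scale, any point -/
theorem cov_bound {n t : ℕ} (hn : 1 ≤ n) (K : Set (Fin n → ℝ)) (hk : IsCompact K)
    (hiso : ∀ i j, ∫ x in K, x i * x j = if i = j then (volume K).toReal else 0)
    (r a : ℝ) (hr : 0 < r) (b : Fin t → ℝ) (S : Set (Fin n → ℝ)) (hSK : S ⊆ K)
    (x : Fin n → ℝ) :
    |∫ x' in S, (∫ γ, gker r b γ (sv a x) * gker r b γ (sv a x') ∂(gm t n) -
        (∫ γ, gker r b γ (sv a x) ∂(gm t n)) * (∫ γ, gker r b γ (sv a x') ∂(gm t n)))| ≤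
      t / r * ((volume K).toReal * (Real.sqrt n * a ^ 2 + 1 / Real.sqrt n)) := by
  have hn0 : (0 : ℝ) < n := by exact_mod_cast hn
  have hsq : 0 < Real.sqrt n := Real.sqrt_pos.mpr hn0
  set v : EuclideanSpace ℝ (Fin n) := sv a x with hv
  by_cases hv0 : v = 0
  · have h1 : ∀ γ : Fin t → EuclideanSpace ℝ (Fin n), gker r b γ v =
        Real.exp (-(∑ i, (0 - b i) ^ 2) / (2 * r ^ 2)) := by
      intro γ
      unfold gker
      rw [hv0]
      simp only [inner_zero_right]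
    have h2 : ∀ x' : Fin n → ℝ, (∫ γ, gker r b γ v * gker r b γ (sv a x') ∂(gm t n) -
        (∫ γ, gker r b γ v ∂(gm t n)) * (∫ γ, gker r b γ (sv a x') ∂(gm t n))) = 0 := by
      intro x'
      simp only [h1]
      rw [integral_const_mul, integral_const, probReal_univ, one_smul, sub_self]
    simp only [h2]
    simp only [integral_zero, abs_zero]
    positivity
  have hvn : 0 < ‖v‖ := norm_pos_iff.2 hv0
  have hcompS : IntegrableOn (fun x' : Fin n → ℝ => (∑ i, v i * x' i) ^ 2) K :=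
    ContinuousOn.integrableOn_compact hk (by (clear * -; fun_prop))
  have hKfin : volume K ≠ ⊤ := hk.measure_lt_top.ne
  have hSfin : volume S ≠ ⊤ := ((measure_mono hSK).trans_lt hk.measure_lt_top).ne
  have hSi : IntegrableOn (fun x' : Fin n → ℝ => (∑ i, v i * x' i) ^ 2) S :=
    hcompS.mono_set hSK
  have hci : IntegrableOn (fun _ : Fin n → ℝ => 1 / Real.sqrt n) S := by
    rw [integrableOn_const_iff]
    right
    exact hSfin.lt_top
  set g : (Fin n → ℝ) → ℝ := fun x' => (t / r) *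
    (Real.sqrt n * (a ^ 2 / ‖v‖ ^ 2) * (∑ i, v i * x' i) ^ 2 + 1 / Real.sqrt n) with hg
  have hgi : IntegrableOn g S := ((hSi.const_mul (Real.sqrt n * (a ^ 2 / ‖v‖ ^ 2))).add
    hci).const_mul (t / r)
  have hbound : ∀ x' : Fin n → ℝ, ‖(∫ γ, gker r b γ v * gker r b γ (sv a x') ∂(gm t n)) -
        (∫ γ, gker r b γ v ∂(gm t n)) * (∫ γ, gker r b γ (sv a x') ∂(gm t n))‖ ≤ g x' := by
    intro x'
    rw [Real.norm_eq_abs]
    refine (gker_cov r hr b v _ hv0).trans ?_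
    set w : ℝ := inner ℝ v (sv a x') with hw
    have hw2 : w ^ 2 = a ^ 2 * (∑ i, v i * x' i) ^ 2 := by
      rw [hw, inner_scaled, mul_pow]
    set u : ℝ := |w| / ‖v‖ with hu
    have hu0 : 0 ≤ u := by positivity
    have hu2 : u ^ 2 = a ^ 2 / ‖v‖ ^ 2 * (∑ i, v i * x' i) ^ 2 := by
      rw [hu, div_pow, sq_abs, hw2]; ring
    have h1 : 2 * t * |w| / (r * ‖v‖) = t / r * (2 * u) := by
      rw [hu]; field_simp
    rw [h1]
    have h2 : 2 * u ≤ Real.sqrt n * u ^ 2 + 1 / Real.sqrt n := by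
      have h3 : 0 ≤ (Real.sqrt n * u - 1) ^ 2 / Real.sqrt n := by positivity
      have h4 : (Real.sqrt n * u - 1) ^ 2 / Real.sqrt n =
          Real.sqrt n * u ^ 2 + 1 / Real.sqrt n - 2 * u := by
        field_simp
        ring
      linarith only [h3, h4]
    rw [hg]
    simp only
    rw [mul_assoc (Real.sqrt n), ← hu2]
    exact mul_le_mul_of_nonneg_left h2 (by positivity)
  have hmain := norm_integral_le_of_norm_le (μ := volume.restrict S) hgi
    (Filter.Eventually.of_forall hbound)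
  rw [Real.norm_eq_abs] at hmain
  refine hmain.trans ?_
  have e1 : ∫ x' in S, g x' = (t / r) * (Real.sqrt n * (a ^ 2 / ‖v‖ ^ 2) *
      (∫ x' in S, (∑ i, v i * x' i) ^ 2) + (volume S).toReal * (1 / Real.sqrt n)) := by
    rw [hg, integral_const_mul, integral_add (hSi.const_mul _) hci,
      integral_const_mul, setIntegral_const]
    rfl
  rw [e1]
  have h6 : ∫ x' in S, (∑ i, v i * x' i) ^ 2 ≤ ‖v‖ ^ 2 * (volume K).toReal := by
    calc ∫ x' in S, (∑ i, v i * x' i) ^ 2 ≤ ∫ x' in K, (∑ i, v i * x' i) ^ 2 :=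
          setIntegral_mono_set hcompS (Filter.Eventually.of_forall fun x' => sq_nonneg _)
            (Filter.Eventually.of_forall hSK)
      _ = (∑ i, v i ^ 2) * (volume K).toReal := iso_form K hk hiso _
      _ = ‖v‖ ^ 2 * (volume K).toReal := by rw [EuclideanSpace.real_norm_sq_eq]
  have h7 : (volume S).toReal ≤ (volume K).toReal := ENNReal.toReal_mono hKfin (measure_mono hSK)
  calc (t / r) * (Real.sqrt n * (a ^ 2 / ‖v‖ ^ 2) *
      (∫ x' in S, (∑ i, v i * x' i) ^ 2) + (volume S).toReal * (1 / Real.sqrt n))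
      ≤ (t / r) * (Real.sqrt n * (a ^ 2 / ‖v‖ ^ 2) * (‖v‖ ^ 2 * (volume K).toReal) +
        (volume K).toReal * (1 / Real.sqrt n)) := by gcongr
    _ = t / r * ((volume K).toReal * (Real.sqrt n * a ^ 2 + 1 / Real.sqrt n)) := by
        field_simp

/-- kernel averages are log-concave in the centre (Prekopa-Leindler) -/
theorem kavg_logconcave {n t : ℕ} (K : Set (Fin n → ℝ)) (hc : Convex ℝ K) (hk : IsCompact K)
    (r a : ℝ) (b₁ b₂ : Fin t → ℝ) (γ : Fin t → EuclideanSpace ℝ (Fin n)) :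
    (∫ x in K, gker r b₁ γ (sv a x)) * (∫ x in K, gker r b₂ γ (sv a x)) ≤
      (∫ x in K, gker r (fun i => (b₁ i + b₂ i) / 2) γ (sv a x)) ^ 2 := by
  have hcont : ∀ b : Fin t → ℝ, Continuous fun x : Fin n → ℝ => gker r b γ (sv a x) := by
    intro b
    unfold gker
    fun_prop
  have hconv : ∀ b : Fin t → ℝ, ENNReal.ofReal (∫ x in K, gker r b γ (sv a x)) =
      ∫⁻ x, K.indicator (fun x => ENNReal.ofReal (gker r b γ (sv a x))) x := by
    intro b
    rw [lintegral_indicator hk.measurableSet]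
    exact ofReal_integral_eq_lintegral_ofReal ((hcont b).continuousOn.integrableOn_compact hk)
      (Filter.Eventually.of_forall fun x => gker_nonneg _ _ _ _)
  have hmeas : ∀ b : Fin t → ℝ, Measurable
      (K.indicator (fun x => ENNReal.ofReal (gker r b γ (sv a x)))) := fun b =>
    ((hcont b).measurable.ennreal_ofReal).indicator hk.measurableSet
  have h := E74.pl_pi n _ _ _ (hmeas b₁) (hmeas b₂) (hmeas (fun i => (b₁ i + b₂ i) / 2)) (by
    intro x y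
    by_cases hx : x ∈ K
    · by_cases hy : y ∈ K
      · have hm : (fun i => (x i + y i) / 2) ∈ K := by
          have := hc hx hy (by norm_num : (0 : ℝ) ≤ 1 / 2) (by norm_num : (0 : ℝ) ≤ 1 / 2)
            (by norm_num)
          have e : (1 / 2 : ℝ) • x + (1 / 2 : ℝ) • y = (fun i => (x i + y i) / 2) := by
            ext i
            simp only [one_div, Pi.add_apply, Pi.smul_apply, smul_eq_mul]; ring
          rw [e] at this
          exact this
        rw [Set.indicator_of_mem hx, Set.indicator_of_mem hy, Set.indicator_of_mem hm,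
          ← ENNReal.ofReal_mul (gker_nonneg _ _ _ _), ← ENNReal.ofReal_pow (gker_nonneg _ _ _ _)]
        apply ENNReal.ofReal_le_ofReal
        unfold gker
        rw [← Real.exp_add, ← Real.exp_nat_mul, Real.exp_le_exp]
        have hin : ∀ i, inner ℝ (γ i) (sv a (fun i => (x i + y i) / 2)) =
            (inner ℝ (γ i) (sv a x) + inner ℝ (γ i) (sv a y)) / 2 := by
          intro i
          simp only [sv]
          rw [inner_scaled, inner_scaled, inner_scaled, ← mul_add, ← Finset.sum_add_distrib,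
            mul_div_assoc, Finset.sum_div]
          congr 1
          refine Finset.sum_congr rfl fun j _ => ?_
          ring
        have hle : 2 * ∑ i, (inner ℝ (γ i) (sv a (fun i => (x i + y i) / 2)) -
            (b₁ i + b₂ i) / 2) ^ 2 ≤ ∑ i, (inner ℝ (γ i) (sv a x) - b₁ i) ^ 2 +
              ∑ i, (inner ℝ (γ i) (sv a y) - b₂ i) ^ 2 := by
          rw [Finset.mul_sum, ← Finset.sum_add_distrib]
          refine Finset.sum_le_sum fun i _ => ?_
          rw [hin i]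
          nlinarith only [sq_nonneg ((inner ℝ (γ i) (sv a x) - b₁ i) -
            (inner ℝ (γ i) (sv a y) - b₂ i))]
        rw [← add_div]
        have e2 : ((2 : ℕ) : ℝ) * (-(∑ i, (inner ℝ (γ i) (sv a (fun i => (x i + y i) / 2)) -
            (b₁ i + b₂ i) / 2) ^ 2) / (2 * r ^ 2)) =
            -(2 * ∑ i, (inner ℝ (γ i) (sv a (fun i => (x i + y i) / 2)) -
            (b₁ i + b₂ i) / 2) ^ 2) / (2 * r ^ 2) := by
          push_cast; ring
        rw [e2]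
        apply div_le_div_of_nonneg_right _ (by positivity)
        linarith only [hle]
      · rw [Set.indicator_of_notMem hy]; simp only [mul_zero, zero_le]
    · rw [Set.indicator_of_notMem hx]; simp only [zero_mul, zero_le])
  rw [← hconv, ← hconv, ← hconv] at h
  have hnn : ∀ b : Fin t → ℝ, 0 ≤ ∫ x in K, gker r b γ (sv a x) := fun b =>
    integral_nonneg fun x => gker_nonneg _ _ _ _
  rw [← ENNReal.ofReal_mul (hnn _), ← ENNReal.ofReal_pow (hnn _),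
    ENNReal.ofReal_le_ofReal_iff (pow_nonneg (hnn _) 2)] at h
  exact h

/-- `1 + |x|^2/n` -/
noncomputable def qq {n : ℕ} (x : Fin n → ℝ) : ℝ := 1 + (∑ i, x i ^ 2) / n

theorem qq_ge {n : ℕ} (x : Fin n → ℝ) : 1 ≤ qq x := by
  unfold qq
  have : 0 ≤ (∑ i, x i ^ 2) / n := div_nonneg (Finset.sum_nonneg fun i _ => sq_nonneg _)
    (Nat.cast_nonneg n)
  linarith

theorem continuous_qq {n : ℕ} : Continuous (qq (n := n)) := by
  unfold qq; fun_prop

theorem continuous_psi_qq {n : ℕ} {T ρ : ℝ} (hT : 0 < T) (hρ : 0 < ρ) :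
    Continuous fun x : Fin n → ℝ => psi T ρ (qq x) := by
  unfold psi
  have h1 : Continuous fun x : Fin n → ℝ => ρ ^ 2 / (qq x * T) := by
    refine Continuous.div continuous_const (continuous_qq.mul continuous_const) fun x => ?_
    have := qq_ge x
    positivity
  have h2 : Continuous fun x : Fin n → ℝ => Real.log (ρ ^ 2 / (qq x * T)) := by
    refine h1.log fun x => ?_
    have := qq_ge x
    positivity
  exact ((continuous_const.mul ((h2.add continuous_const).sub h1))).rexp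

/-- the radial profile of the average -/
noncomputable def prof {n : ℕ} (K : Set (Fin n → ℝ)) (T ρ : ℝ) : ℝ := ∫ x in K, psi T ρ (qq x)

theorem mean_radial {n t : ℕ} (hn : 1 ≤ n) (ht : 1 ≤ t) (K : Set (Fin n → ℝ))
    (ρ : ℝ) (hρ : 0 < ρ) :
    ∫ x in K, (∫ γ, gker 1 (fun _ => ρ / Real.sqrt t) γ (sv (1 / Real.sqrt n) x) ∂(gm t n)) =
      Real.exp (t / 2 * (Real.log t - 1) - t * Real.log ρ) * prof K t ρ := by
  have hn0 : (0 : ℝ) < n := by exact_mod_cast hn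
  have ht0 : (0 : ℝ) < t := by exact_mod_cast ht
  unfold prof
  rw [← integral_const_mul]
  congr 1
  funext x
  rw [gker_mean 1 one_pos, norm_scaled, ← psi_eq ht0 hρ (by have := qq_ge x; linarith)]
  have h1 : (1 : ℝ) ^ 2 + (1 / Real.sqrt n) ^ 2 * ∑ i, x i ^ 2 = qq x := by
    unfold qq
    rw [div_pow, Real.sq_sqrt hn0.le]; ring
  have h2 : ∑ _i : Fin t, (ρ / Real.sqrt t) ^ 2 = ρ ^ 2 := by
    rw [Finset.sum_const, Finset.card_univ, Fintype.card_fin, nsmul_eq_mul, div_pow,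
      Real.sq_sqrt ht0.le]
    field_simp
  rw [h1, h2, one_pow]

theorem prof_nonneg {n : ℕ} (K : Set (Fin n → ℝ)) (T ρ : ℝ) : 0 ≤ prof K T ρ :=
  integral_nonneg fun x => (psi_pos _ _ _).le

theorem prof_le {n : ℕ} (K : Set (Fin n → ℝ)) (hk : IsCompact K) {T ρ : ℝ} (hT : 0 < T)
    (hρ : 0 < ρ) : prof K T ρ ≤ (volume K).toReal := by
  have : IsFiniteMeasure (volume.restrict K) :=
    ⟨by rw [Measure.restrict_apply_univ]; exact hk.measure_lt_top⟩
  have h := norm_integral_le_of_norm_le_const (μ := volume.restrict K)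
    (f := fun x => psi T ρ (qq x)) (C := 1) (Filter.Eventually.of_forall fun x => by
      rw [Real.norm_eq_abs, abs_of_pos (psi_pos _ _ _)]
      exact psi_le_one hT hρ (by have := qq_ge x; linarith))
  rw [Real.norm_eq_abs, one_mul, measureReal_restrict_apply_univ] at h
  exact (le_abs_self _).trans h

/-- concentration at three points -/
theorem three_points {n t : ℕ} (hn : 1 ≤ n) (K : Set (Fin n → ℝ)) (hk : IsCompact K)
    (hiso : ∀ i j, ∫ x in K, x i * x j = if i = j then (volume K).toReal else 0)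
    (b₁ b₂ b₃ : Fin t → ℝ) :
    ∃ γ : Fin t → EuclideanSpace ℝ (Fin n), ∀ b : Fin t → ℝ, (b = b₁ ∨ b = b₂ ∨ b = b₃) →
      ((∫ x in K, gker 1 b γ (sv (1 / Real.sqrt n) x)) -
        ∫ x in K, (∫ γ, gker 1 b γ (sv (1 / Real.sqrt n) x) ∂(gm t n))) ^ 2 ≤
        6 * t / Real.sqrt n * (volume K).toReal ^ 2 := by
  have hn0 : (0 : ℝ) < n := by exact_mod_cast hn
  have hsq : 0 < Real.sqrt n := Real.sqrt_pos.mpr hn0
  have hsqn : Real.sqrt n ^ 2 = n := Real.sq_sqrt hn0.le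
  set V := (volume K).toReal with hV
  have hKfin : volume K < ⊤ := hk.measure_lt_top
  have : IsFiniteMeasure (volume.restrict K) := ⟨by rw [Measure.restrict_apply_univ]; exact hKfin⟩
  set k : (Fin t → ℝ) → (Fin n → ℝ) → (Fin t → EuclideanSpace ℝ (Fin n)) → ℝ :=
    fun b x γ => gker 1 b γ (sv (1 / Real.sqrt n) x) with hkdef
  have hkm : ∀ b, StronglyMeasurable (Function.uncurry (k b)) := by
    intro b
    have : Continuous (Function.uncurry (k b)) := by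
      rw [hkdef]
      unfold gker Function.uncurry
      fun_prop
    exact this.stronglyMeasurable
  have hkb : ∀ b x γ, |k b x γ| ≤ 1 := fun b x γ => gker_abs_le_one _ _ _ _
  set W : ℝ := t / 1 * (V * (Real.sqrt n * (1 / Real.sqrt n) ^ 2 + 1 / Real.sqrt n)) with hW
  have hW' : W = 2 * t / Real.sqrt n * V := by
    rw [hW]; field_simp; ring
  have hsm := fun b => second_moment (volume.restrict K) (gm t n) (k b) (hkm b) (hkb b) W
    (Filter.Eventually.of_forall fun x =>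
      cov_bound hn K hk hiso 1 (1 / Real.sqrt n) one_pos b K (fun _ h => h) x)
  set D : (Fin t → ℝ) → (Fin t → EuclideanSpace ℝ (Fin n)) → ℝ := fun b γ =>
    ((∫ x in K, k b x γ) - ∫ x in K, ∫ γ, k b x γ ∂(gm t n)) ^ 2 with hD
  have hD0 : ∀ b γ, 0 ≤ D b γ := fun b γ => sq_nonneg _
  have hint : Integrable (fun γ => D b₁ γ + D b₂ γ + D b₃ γ) (gm t n) :=
    ((hsm b₁).1.add (hsm b₂).1).add (hsm b₃).1
  obtain ⟨γ, hγ⟩ := exists_le_integral hint
  have htot : ∫ γ, (D b₁ γ + D b₂ γ + D b₃ γ) ∂(gm t n) ≤ 6 * t / Real.sqrt n * V ^ 2 := by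
    have hDi : ∀ b, Integrable (D b) (gm t n) := fun b => (hsm b).1
    have e1 : ∫ γ, (D b₁ γ + D b₂ γ + D b₃ γ) ∂(gm t n) =
        (∫ γ, D b₁ γ ∂(gm t n)) + (∫ γ, D b₂ γ ∂(gm t n)) + ∫ γ, D b₃ γ ∂(gm t n) := by
      rw [← integral_add (hDi b₁) (hDi b₂)]
      exact integral_add ((hDi b₁).add (hDi b₂)) (hDi b₃)
    rw [e1]
    have h1 : ∫ γ, D b₁ γ ∂(gm t n) ≤ _ := (hsm b₁).2
    have h2 : ∫ γ, D b₂ γ ∂(gm t n) ≤ _ := (hsm b₂).2
    have h3 : ∫ γ, D b₃ γ ∂(gm t n) ≤ _ := (hsm b₃).2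
    rw [measureReal_restrict_apply_univ, hW'] at h1 h2 h3
    have e : volume.real K = V := rfl
    rw [e] at h1 h2 h3
    have e2 : 6 * t / Real.sqrt n * V ^ 2 = 2 * t / Real.sqrt n * V * V +
      2 * t / Real.sqrt n * V * V + 2 * t / Real.sqrt n * V * V := by ring
    rw [e2]
    exact add_le_add (add_le_add h1 h2) h3
  refine ⟨γ, fun b hb => ?_⟩
  have h4 : D b γ ≤ D b₁ γ + D b₂ γ + D b₃ γ := by
    rcases hb with rfl | rfl | rfl
    · linarith [hD0 b₂ γ, hD0 b₃ γ]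
    · linarith [hD0 b₁ γ, hD0 b₃ γ]
    · linarith [hD0 b₁ γ, hD0 b₂ γ]
  exact h4.trans (hγ.trans htot)

/-- lower bound for the mean -/
theorem mean_ge {n t : ℕ} (hn : 1 ≤ n) (ht : 1 ≤ t) (K : Set (Fin n → ℝ)) (hk : IsCompact K)
    (s c₀ C₀ C₄ ρ : ℝ) (hs : 0 < s) (hs2 : s ≤ C₀) (hρ : 0 < ρ) (hρ2 : ρ ^ 2 ≤ C₄ * t)
    (hmass : c₀ * (volume K).toReal ≤ (volume {x ∈ K | s * n ≤ ∑ i, x i ^ 2 ∧
      ∑ i, x i ^ 2 ≤ s * 2 * n}).toReal) :
    c₀ * (volume K).toReal * Real.exp (-((C₀ + C₄ / 2) * t)) ≤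
      ∫ x in K, (∫ γ, gker 1 (fun _ => ρ / Real.sqrt t) γ (sv (1 / Real.sqrt n) x) ∂(gm t n)) := by
  have hn0 : (0 : ℝ) < n := by exact_mod_cast hn
  have ht0 : (0 : ℝ) < t := by exact_mod_cast ht
  set S : Set (Fin n → ℝ) := {x ∈ K | s * n ≤ ∑ i, x i ^ 2 ∧ ∑ i, x i ^ 2 ≤ s * 2 * n} with hS
  have hSK : S ⊆ K := fun x hx => hx.1
  have hSm : MeasurableSet S := by
    have h1 : S = K ∩ ({x | s * n ≤ ∑ i, x i ^ 2} ∩ {x | ∑ i, x i ^ 2 ≤ s * 2 * n}) :=
      rfl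
    rw [h1]
    refine hk.isClosed.measurableSet.inter (IsClosed.measurableSet ?_ |>.inter
      (IsClosed.measurableSet ?_))
    · exact isClosed_le (by fun_prop) (by fun_prop)
    · exact isClosed_le (by fun_prop) (by fun_prop)
  have hSfin : volume S < ⊤ := (measure_mono hSK).trans_lt hk.measure_lt_top
  rw [mean_radial hn ht K ρ hρ]
  unfold prof
  rw [← integral_const_mul]
  set f : (Fin n → ℝ) → ℝ := fun x =>
    Real.exp (t / 2 * (Real.log t - 1) - t * Real.log ρ) * psi t ρ (qq x) with hf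
  have hfi : IntegrableOn f K :=
    (continuous_const.mul (continuous_psi_qq ht0 hρ)).continuousOn.integrableOn_compact hk
  have hf0 : ∀ x, 0 ≤ f x := fun x => mul_nonneg (Real.exp_pos _).le (psi_pos _ _ _).le
  have h1 : ∫ x in S, f x ≤ ∫ x in K, f x :=
    setIntegral_mono_set hfi (Filter.Eventually.of_forall hf0) (Filter.Eventually.of_forall hSK)
  refine le_trans ?_ h1
  have h2 : ∫ _x in S, Real.exp (-((C₀ + C₄ / 2) * t)) ≤ ∫ x in S, f x := by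
    refine setIntegral_mono_on (integrableOn_const hSfin.ne) (hfi.mono_set hSK) hSm ?_
    intro x hx
    have hq1 := qq_ge x
    have hq0 : 0 < qq x := by linarith
    have hq2 : qq x ≤ 1 + 2 * C₀ := by
      unfold qq
      have : (∑ i, x i ^ 2) / n ≤ 2 * C₀ := by
        rw [div_le_iff₀ hn0]
        refine hx.2.2.trans ?_
        have : s * 2 * n ≤ C₀ * 2 * n := by gcongr
        linarith
      linarith
    simp only [hf]
    rw [← psi_eq ht0 hρ hq0, Real.rpow_def_of_pos (by positivity), ← Real.exp_add,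
      Real.exp_le_exp, one_div, Real.log_inv]
    have h3 : Real.log (qq x) ≤ 2 * C₀ := by
      have := Real.log_le_sub_one_of_pos hq0
      linarith
    have h4 : ρ ^ 2 / (2 * qq x) ≤ C₄ * t / 2 := by
      rw [div_le_div_iff₀ (by positivity) (by norm_num)]
      have : 0 ≤ C₄ * t := (sq_nonneg ρ).trans hρ2
      nlinarith only [this, hρ2, hq1]
    have h5 : Real.log (qq x) * (t / 2) ≤ 2 * C₀ * (t / 2) :=
      mul_le_mul_of_nonneg_right h3 (by positivity)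
    rw [neg_div]
    linarith only [h4, h5]
  refine le_trans ?_ h2
  rw [setIntegral_const, smul_eq_mul]
  exact mul_le_mul_of_nonneg_right hmass (Real.exp_pos _).le

/-- numerical condition -/
theorem cond_num (c₀ C₆ : ℝ) (hc₀ : 0 < c₀) : ∃ t₀ : ℕ, ∀ t ≥ t₀, 1 ≤ t ∧
    600 * (t : ℝ) ≤ (c₀ * Real.exp (-(C₆ * t))) ^ 2 * Real.exp ((t : ℝ) ^ 3 / 2) := by
  obtain ⟨m, hm⟩ := exists_nat_ge (1200 / c₀ ^ 2 + 4 * |C₆| + 4)
  refine ⟨m, fun t ht => ?_⟩
  have htm : (1200 / c₀ ^ 2 + 4 * |C₆| + 4 : ℝ) ≤ t := hm.trans (by exact_mod_cast ht)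
  have h0 : 0 ≤ 1200 / c₀ ^ 2 := by positivity
  have h0' := abs_nonneg C₆
  have ht4 : (4 : ℝ) ≤ t := by linarith
  have ht0 : (0 : ℝ) < t := by linarith
  refine ⟨by
    have : (1 : ℝ) ≤ t := by linarith
    exact_mod_cast this, ?_⟩
  rw [mul_pow, ← Real.exp_nat_mul, mul_assoc, ← Real.exp_add]
  have h1 : (t : ℝ) ≤ ((2 : ℕ) : ℝ) * -(C₆ * t) + (t : ℝ) ^ 3 / 2 := by
    push_cast
    have h2 : C₆ ≤ |C₆| := le_abs_self _
    have h3 : C₆ * t ≤ |C₆| * t := mul_le_mul_of_nonneg_right h2 ht0.le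
    have h4 : 4 * |C₆| + 4 ≤ (t : ℝ) := by linarith
    have h5 : (4 * |C₆| + 4) * t * 1 ≤ t * t * t := by
      have : (1 : ℝ) ≤ t := by linarith
      gcongr
    nlinarith only [h3, h5, ht0]
  have h2 : (t : ℝ) ^ 2 / 2 ≤ Real.exp t := by
    have := Real.quadratic_le_exp_of_nonneg ht0.le
    linarith
  have h3 : Real.exp t ≤ Real.exp (((2 : ℕ) : ℝ) * -(C₆ * t) + (t : ℝ) ^ 3 / 2) :=
    Real.exp_le_exp.2 h1
  have h4 : 600 * (t : ℝ) ≤ c₀ ^ 2 * ((t : ℝ) ^ 2 / 2) := by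
    have h5 : 1200 / c₀ ^ 2 ≤ t := by linarith
    rw [div_le_iff₀ (by positivity)] at h5
    nlinarith only [h5, ht0]
  calc 600 * (t : ℝ) ≤ c₀ ^ 2 * ((t : ℝ) ^ 2 / 2) := h4
    _ ≤ c₀ ^ 2 * Real.exp (((2 : ℕ) : ℝ) * -(C₆ * t) + (t : ℝ) ^ 3 / 2) :=
      mul_le_mul_of_nonneg_left (h2.trans h3) (by positivity)

/-- midpoint inequality for the radial profile -/
theorem prof_mid {n t : ℕ} (hn : 1 ≤ n) (ht : 1 ≤ t) (hexp : Real.exp ((t : ℝ) ^ 3) ≤ n)
    (K : Set (Fin n → ℝ)) (hc : Convex ℝ K) (hk : IsCompact K)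
    (hiso : ∀ i j, ∫ x in K, x i * x j = if i = j then (volume K).toReal else 0)
    (s c₀ C₀ C₄ : ℝ) (hs : 0 < s) (hc₀ : 0 < c₀) (hs2 : s ≤ C₀) (hC₄ : 0 < C₄)
    (hmass : c₀ * (volume K).toReal ≤ (volume {x ∈ K | s * n ≤ ∑ i, x i ^ 2 ∧
      ∑ i, x i ^ 2 ≤ s * 2 * n}).toReal)
    (hnum : 600 * (t : ℝ) ≤ (c₀ * Real.exp (-((C₀ + C₄ / 2) * t))) ^ 2 *
      Real.exp ((t : ℝ) ^ 3 / 2))
    (ρ₁ ρ₂ : ℝ) (h1 : 0 < ρ₁) (h2 : 0 < ρ₂) (h1' : ρ₁ ^ 2 ≤ C₄ * t) (h2' : ρ₂ ^ 2 ≤ C₄ * t) :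
    prof K t ρ₁ * prof K t ρ₂ ≤ 2 * prof K t ((ρ₁ + ρ₂) / 2) ^ 2 *
      Real.exp (-(1 / (4 * C₄) * (ρ₁ - ρ₂) ^ 2)) := by
  have hn0 : (0 : ℝ) < n := by exact_mod_cast hn
  have ht0 : (0 : ℝ) < t := by exact_mod_cast ht
  have hsq : 0 < Real.sqrt n := Real.sqrt_pos.mpr hn0
  set V := (volume K).toReal with hV
  have hV0 : 0 ≤ V := ENNReal.toReal_nonneg
  set ρ₃ := (ρ₁ + ρ₂) / 2 with hρ₃
  have h3 : 0 < ρ₃ := by positivity
  have h3' : ρ₃ ^ 2 ≤ C₄ * t := by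
    have : ρ₃ ^ 2 ≤ (ρ₁ ^ 2 + ρ₂ ^ 2) / 2 := by
      rw [hρ₃]; nlinarith only [sq_nonneg (ρ₁ - ρ₂)]
    linarith
  set B : ℝ → Fin t → ℝ := fun ρ _ => ρ / Real.sqrt t with hB
  have hmid : (fun i => (B ρ₁ i + B ρ₂ i) / 2) = B ρ₃ := by
    funext i
    simp only [hB, hρ₃]; ring
  obtain ⟨γ, hγ⟩ := three_points hn K hk hiso (B ρ₁) (B ρ₂) (B ρ₃)
  set F : ℝ → ℝ := fun ρ => ∫ x in K, gker 1 (B ρ) γ (sv (1 / Real.sqrt n) x) with hF
  set M : ℝ → ℝ := fun ρ => ∫ x in K, (∫ γ, gker 1 (B ρ) γ (sv (1 / Real.sqrt n) x) ∂(gm t n))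
    with hM
  set m₀ : ℝ := c₀ * Real.exp (-((C₀ + C₄ / 2) * t)) with hm₀
  have hm₀0 : 0 < m₀ := by positivity
  have hsqe : Real.exp ((t : ℝ) ^ 3 / 2) ≤ Real.sqrt n := by
    apply Real.le_sqrt_of_sq_le
    rw [← Real.exp_nat_mul]
    refine le_trans (le_of_eq ?_) hexp
    congr 1
    push_cast
    ring
  have hW : 6 * t / Real.sqrt n * V ^ 2 ≤ (m₀ * V / 10) ^ 2 := by
    have ha : 6 * t / Real.sqrt n ≤ m₀ ^ 2 / 100 := by
      rw [div_le_div_iff₀ hsq (by norm_num)]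
      have : m₀ ^ 2 * Real.exp ((t : ℝ) ^ 3 / 2) ≤ m₀ ^ 2 * Real.sqrt n :=
        mul_le_mul_of_nonneg_left hsqe (by positivity)
      linarith
    calc 6 * t / Real.sqrt n * V ^ 2 ≤ m₀ ^ 2 / 100 * V ^ 2 :=
          mul_le_mul_of_nonneg_right ha (by positivity)
      _ = (m₀ * V / 10) ^ 2 := by ring
  have hclose : ∀ ρ : ℝ, (ρ = ρ₁ ∨ ρ = ρ₂ ∨ ρ = ρ₃) → 0 < ρ → ρ ^ 2 ≤ C₄ * t →
      0.9 * M ρ ≤ F ρ ∧ F ρ ≤ 1.1 * M ρ ∧ 0 ≤ M ρ := by
    intro ρ hρ hρ0 hρ2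
    have ha := hγ (B ρ) (by rcases hρ with rfl | rfl | rfl <;> simp)
    have hb := mean_ge hn ht K hk s c₀ C₀ C₄ ρ hs hs2 hρ0 hρ2 hmass
    have hb' : m₀ * V ≤ M ρ := by
      refine le_trans (le_of_eq ?_) hb
      rw [hm₀]; ring
    have hc := abs_le_of_sq_le_sq' (ha.trans hW) (by positivity)
    have hd : 0 ≤ m₀ * V := by positivity
    have hc1 : -(m₀ * V / 10) ≤ F ρ - M ρ := hc.1
    have hc2 : F ρ - M ρ ≤ m₀ * V / 10 := hc.2
    refine ⟨by linarith, by linarith, by linarith⟩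
  obtain ⟨a1, a2, a3⟩ := hclose ρ₁ (Or.inl rfl) h1 h1'
  obtain ⟨b1, b2, b3⟩ := hclose ρ₂ (Or.inr (Or.inl rfl)) h2 h2'
  obtain ⟨c1, c2, c3⟩ := hclose ρ₃ (Or.inr (Or.inr rfl)) h3 h3'
  have hlc : F ρ₁ * F ρ₂ ≤ F ρ₃ ^ 2 := by
    have := kavg_logconcave K hc hk 1 (1 / Real.sqrt n) (B ρ₁) (B ρ₂) γ
    rw [hmid] at this
    exact this
  have hMM : M ρ₁ * M ρ₂ ≤ 2 * M ρ₃ ^ 2 := by
    have e1 : (0.9 * M ρ₁) * (0.9 * M ρ₂) ≤ F ρ₁ * F ρ₂ := by
      have : 0 ≤ F ρ₁ := by linarith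
      exact mul_le_mul a1 b1 (by positivity) this
    have e2 : F ρ₃ ^ 2 ≤ (1.1 * M ρ₃) ^ 2 := by
      have : 0 ≤ F ρ₃ := by linarith
      exact pow_le_pow_left₀ this c2 2
    nlinarith only [e1, e2, hlc, sq_nonneg (M ρ₃)]
  have hMr : ∀ ρ : ℝ, 0 < ρ → M ρ =
      Real.exp (t / 2 * (Real.log t - 1) - t * Real.log ρ) * prof K t ρ :=
    fun ρ hρ => mean_radial hn ht K ρ hρ
  rw [hMr ρ₁ h1, hMr ρ₂ h2, hMr ρ₃ h3] at hMM
  have hP1 := prof_nonneg K t ρ₁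
  have hP2 := prof_nonneg K t ρ₂
  have hP3 := prof_nonneg K t ρ₃
  set E : ℝ → ℝ := fun ρ => Real.exp (t / 2 * (Real.log t - 1) - t * Real.log ρ) with hE
  have hE0 : ∀ ρ, 0 < E ρ := fun ρ => Real.exp_pos _
  have hEE : E ρ₃ ^ 2 ≤ E ρ₁ * E ρ₂ * Real.exp (-(1 / (4 * C₄) * (ρ₁ - ρ₂) ^ 2)) := by
    simp only [hE]
    rw [← Real.exp_nat_mul, ← Real.exp_add, ← Real.exp_add, Real.exp_le_exp]
    push_cast
    have hlog : Real.log ρ₁ + Real.log ρ₂ - 2 * Real.log ρ₃ ≤ -((ρ₁ - ρ₂) ^ 2 / (4 * ρ₃ ^ 2)) := by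
      have e1 : Real.log ρ₁ + Real.log ρ₂ - 2 * Real.log ρ₃ = Real.log (ρ₁ * ρ₂ / ρ₃ ^ 2) := by
        rw [Real.log_div (mul_pos h1 h2).ne' (pow_pos h3 2).ne', Real.log_mul h1.ne' h2.ne',
          Real.log_pow]
        push_cast; ring
      rw [e1]
      refine (Real.log_le_sub_one_of_pos (by positivity)).trans (le_of_eq ?_)
      have : ρ₁ * ρ₂ = ρ₃ ^ 2 - (ρ₁ - ρ₂) ^ 2 / 4 := by rw [hρ₃]; ring
      rw [this]
      field_simp
      ring
    have h5 : 1 / (4 * C₄) * (ρ₁ - ρ₂) ^ 2 ≤ t * ((ρ₁ - ρ₂) ^ 2 / (4 * ρ₃ ^ 2)) := by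
      have : 1 / (4 * C₄) ≤ t * (1 / (4 * ρ₃ ^ 2)) := by
        rw [mul_one_div, div_le_div_iff₀ (by positivity) (by positivity)]
        linarith
      calc 1 / (4 * C₄) * (ρ₁ - ρ₂) ^ 2 ≤ t * (1 / (4 * ρ₃ ^ 2)) * (ρ₁ - ρ₂) ^ 2 :=
            mul_le_mul_of_nonneg_right this (sq_nonneg _)
        _ = _ := by ring
    have h6 := mul_le_mul_of_nonneg_left hlog ht0.le
    linarith only [h5, h6]
  have hfin : (E ρ₁ * E ρ₂) * (prof K t ρ₁ * prof K t ρ₂) ≤ (E ρ₁ * E ρ₂) *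
      (2 * prof K t ρ₃ ^ 2 * Real.exp (-(1 / (4 * C₄) * (ρ₁ - ρ₂) ^ 2))) := by
    calc (E ρ₁ * E ρ₂) * (prof K t ρ₁ * prof K t ρ₂)
        = E ρ₁ * prof K t ρ₁ * (E ρ₂ * prof K t ρ₂) := by ring
      _ ≤ 2 * (E ρ₃ * prof K t ρ₃) ^ 2 := hMM
      _ = 2 * prof K t ρ₃ ^ 2 * E ρ₃ ^ 2 := by ring
      _ ≤ 2 * prof K t ρ₃ ^ 2 *
          (E ρ₁ * E ρ₂ * Real.exp (-(1 / (4 * C₄) * (ρ₁ - ρ₂) ^ 2))) :=
        mul_le_mul_of_nonneg_left hEE (by positivity)
      _ = _ := by ring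
  exact le_of_mul_le_mul_left hfin (mul_pos (hE0 _) (hE0 _))

end Vale.Agent.P230.C1
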