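import Vale.Agent.P230.H706.Radial

set_option linter.all false

namespace Vale.Agent.P230.C1

open MeasureTheory ProbabilityTheory
open scoped ENNReal

/-- measurability of shells -/
theorem shell_meas {n : ℕ} {K : Set (Fin n → ℝ)} (hk : IsCompact K) (a b : ℝ) :
    MeasurableSet {x ∈ K | a ≤ ∑ i, x i ^ 2 ∧ ∑ i, x i ^ 2 ≤ b} := by
  have h1 : {x ∈ K | a ≤ ∑ i, x i ^ 2 ∧ ∑ i, x i ^ 2 ≤ b} =
      K ∩ ({x | a ≤ ∑ i, x i ^ 2} ∩ {x | ∑ i, x i ^ 2 ≤ b}) := rfl
  rw [h1]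
  refine hk.isClosed.measurableSet.inter (IsClosed.measurableSet ?_ |>.inter
    (IsClosed.measurableSet ?_))
  · exact isClosed_le (by fun_prop) (by fun_prop)
  · exact isClosed_le (by fun_prop) (by fun_prop)

/-- the sum of the profile over a unit grid -/
theorem grid_sum {n t : ℕ} (hn : 1 ≤ n) (ht : 16 ≤ t) (K : Set (Fin n → ℝ)) (hk : IsCompact K)
    (s : ℝ) (hs : 0 < s) :
    Real.exp (-4) * (volume {x ∈ K | s * n ≤ ∑ i, x i ^ 2 ∧ ∑ i, x i ^ 2 ≤ s * 2 * n}).toReal ≤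
      ∑ j ∈ Finset.range (⌈Real.sqrt (t * (1 + 2 * s))⌉₊ + 1),
        prof K t (Real.sqrt (t * (1 + s)) + j) := by
  have hn0 : (0 : ℝ) < n := by exact_mod_cast hn
  have ht16 : (16 : ℝ) ≤ t := by exact_mod_cast ht
  have ht0 : (0 : ℝ) < t := by linarith
  set lo := Real.sqrt (t * (1 + s)) with hlo
  have hlo0 : 0 < lo := Real.sqrt_pos.2 (by positivity)
  set J := ⌈Real.sqrt (t * (1 + 2 * s))⌉₊ with hJ
  set S : Set (Fin n → ℝ) := {x ∈ K | s * n ≤ ∑ i, x i ^ 2 ∧ ∑ i, x i ^ 2 ≤ s * 2 * n} with hS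
  have hSK : S ⊆ K := fun x hx => hx.1
  have hSm : MeasurableSet S := shell_meas hk _ _
  have hSfin : volume S < ⊤ := (measure_mono hSK).trans_lt hk.measure_lt_top
  have hρ : ∀ j : ℕ, 0 < lo + j := fun j => by positivity
  have hfi : ∀ j : ℕ, IntegrableOn (fun x : Fin n → ℝ => psi t (lo + j) (qq x)) K := fun j =>
    (continuous_psi_qq ht0 (hρ j)).continuousOn.integrableOn_compact hk
  have h1 : ∀ j ∈ Finset.range (J + 1), ∫ x in S, psi t (lo + j) (qq x) ≤ prof K t (lo + j) :=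
    fun j _ => setIntegral_mono_set (hfi j) (Filter.Eventually.of_forall fun x => (psi_pos _ _ _).le)
      (Filter.Eventually.of_forall hSK)
  refine le_trans ?_ (Finset.sum_le_sum h1)
  rw [← integral_finsetSum _ fun j _ => (hfi j).mono_set hSK]
  have h2 : ∫ _x in S, Real.exp (-4) ≤
      ∫ x in S, ∑ j ∈ Finset.range (J + 1), psi t (lo + j) (qq x) := by
    refine setIntegral_mono_on (integrableOn_const hSfin.ne)
      (integrable_finsetSum _ fun j _ => (hfi j).mono_set hSK) hSm ?_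
    intro x hx
    have hq1 := qq_ge x
    have hqlo : 1 + s ≤ qq x := by
      unfold qq
      have : s ≤ (∑ i, x i ^ 2) / n := by
        rw [le_div_iff₀ hn0]; exact hx.2.1
      linarith
    have hqhi : qq x ≤ 1 + 2 * s := by
      unfold qq
      have : (∑ i, x i ^ 2) / n ≤ 2 * s := by
        rw [div_le_iff₀ hn0]
        refine hx.2.2.trans (le_of_eq ?_); ring
      linarith
    set z := Real.sqrt (qq x * t) with hz
    have hz1 : lo ≤ z := Real.sqrt_le_sqrt (by nlinarith only [hqlo, ht0])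
    have hz2 : z ≤ Real.sqrt (t * (1 + 2 * s)) := Real.sqrt_le_sqrt (by nlinarith only [hqhi, ht0])
    have hz4 : 4 ≤ z := by
      rw [hz]
      apply Real.le_sqrt_of_sq_le
      nlinarith only [hq1, ht16]
    set j := ⌊z - lo⌋₊ with hj
    have hj1 : (j : ℝ) ≤ z - lo := Nat.floor_le (by linarith)
    have hj2 : z - lo < j + 1 := Nat.lt_floor_add_one _
    have hjJ : j ∈ Finset.range (J + 1) := by
      rw [Finset.mem_range, Nat.lt_add_one_iff]
      have : (j : ℝ) ≤ J := by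
        have := Nat.le_ceil (Real.sqrt (t * (1 + 2 * s)))
        rw [← hJ] at this
        linarith
      exact_mod_cast this
    have h3 : Real.exp (-4) ≤ psi t (lo + j) (qq x) :=
      psi_lower ht0 hq1 hz4 (by linarith) (by linarith)
    exact h3.trans (Finset.single_le_sum (f := fun j : ℕ => psi t (lo + j) (qq x))
      (fun i _ => (psi_pos _ _ _).le) hjJ)
  refine le_trans (le_of_eq ?_) h2
  rw [setIntegral_const, smul_eq_mul, mul_comm]
  rfl

/-- from a high peak of the profile to a window -/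
theorem window_of_peak {n t : ℕ} (hn : 1 ≤ n) (ht : 1 ≤ t) (K : Set (Fin n → ℝ))
    (hk : IsCompact K) (ρ₀ c₇ : ℝ) (hρ₀ : 0 < ρ₀) (hc₇ : 0 < c₇)
    (hpk : c₇ * (volume K).toReal ≤ prof K t ρ₀) :
    c₇ / 2 * (volume K).toReal ≤ (volume {x ∈ K |
      |ρ₀ - Real.sqrt (qq x * t)| ≤ 2 / c₇ * Real.sqrt (qq x)}).toReal := by
  have hn0 : (0 : ℝ) < n := by exact_mod_cast hn
  have ht0 : (0 : ℝ) < t := by exact_mod_cast ht
  set D := 2 / c₇ with hD
  have hD0 : 0 < D := by positivity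
  set V := (volume K).toReal with hV
  set S : Set (Fin n → ℝ) := {x ∈ K | |ρ₀ - Real.sqrt (qq x * t)| ≤ D * Real.sqrt (qq x)} with hS
  have hSK : S ⊆ K := fun x hx => hx.1
  have hSm : MeasurableSet S := by
    have h1 : S = K ∩ {x | |ρ₀ - Real.sqrt (qq x * t)| ≤ D * Real.sqrt (qq x)} := rfl
    rw [h1]
    refine hk.isClosed.measurableSet.inter (IsClosed.measurableSet (isClosed_le ?_ ?_))
    · exact (continuous_const.sub (Real.continuous_sqrt.comp
        (continuous_qq.mul continuous_const))).abs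
    · exact continuous_const.mul (Real.continuous_sqrt.comp continuous_qq)
  have hfi : IntegrableOn (fun x : Fin n → ℝ => psi t ρ₀ (qq x)) K :=
    (continuous_psi_qq ht0 hρ₀).continuousOn.integrableOn_compact hk
  have hKfin : volume K ≠ ⊤ := hk.measure_lt_top.ne
  have hSfin : volume S ≠ ⊤ := ((measure_mono hSK).trans_lt hk.measure_lt_top).ne
  have hsplit := integral_inter_add_sdiff (μ := volume) (f := fun x : Fin n → ℝ => psi t ρ₀ (qq x))
    (s := K) hSm hfi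
  rw [Set.inter_eq_right.2 hSK] at hsplit
  have hDe : Real.exp (-(D ^ 2 / 2)) ≤ c₇ / 2 := by
    have h1 := Real.add_one_le_exp (D ^ 2 / 2)
    have h2 : D ≤ Real.exp (D ^ 2 / 2) := by nlinarith only [h1, sq_nonneg (D - 1)]
    have h3 : c₇ / 2 = 1 / D := by rw [hD]; field_simp
    rw [h3, Real.exp_neg, ← one_div]
    exact one_div_le_one_div_of_le hD0 h2
  have ha : ∫ x in S, psi t ρ₀ (qq x) ≤ (volume S).toReal := by
    have h1 : ∫ x in S, psi t ρ₀ (qq x) ≤ ∫ _x in S, (1 : ℝ) := by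
      refine setIntegral_mono_on (hfi.mono_set hSK) (integrableOn_const hSfin) hSm ?_
      intro x hx
      exact psi_le_one ht0 hρ₀ (by have := qq_ge x; linarith)
    rw [setIntegral_const, smul_eq_mul, mul_one] at h1
    exact h1
  have hb : ∫ x in K \ S, psi t ρ₀ (qq x) ≤ c₇ / 2 * V := by
    have h1 : ∫ x in K \ S, psi t ρ₀ (qq x) ≤ ∫ _x in K \ S, (c₇ / 2 : ℝ) := by
      refine setIntegral_mono_on (hfi.mono_set Set.sdiff_subset) ?_
        (hk.measurableSet.diff hSm) ?_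
      · exact integrableOn_const (ne_top_of_le_ne_top hKfin (measure_mono Set.sdiff_subset))
      · intro x hx
        have hq := qq_ge x
        have hq0 : 0 < qq x := by linarith
        refine (psi_upper ht0 hρ₀ hq0).trans (le_trans ?_ hDe)
        rw [Real.exp_le_exp, neg_div, neg_le_neg_iff]
        have h2 : D * Real.sqrt (qq x) < |ρ₀ - Real.sqrt (qq x * t)| := by
          by_contra hcon
          exact hx.2 ⟨hx.1, not_lt.1 hcon⟩
        have h3 : (D * Real.sqrt (qq x)) ^ 2 ≤ (ρ₀ - Real.sqrt (qq x * t)) ^ 2 := by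
          rw [← sq_abs (ρ₀ - Real.sqrt (qq x * t))]
          exact pow_le_pow_left₀ (by positivity) h2.le 2
        rw [mul_pow, Real.sq_sqrt hq0.le] at h3
        rw [div_le_div_iff₀ (by norm_num) (by positivity)]
        linarith
    rw [setIntegral_const, smul_eq_mul] at h1
    refine h1.trans ?_
    rw [mul_comm]
    refine mul_le_mul_of_nonneg_left ?_ (by positivity)
    exact ENNReal.toReal_mono hKfin (measure_mono Set.sdiff_subset)
  have hc : prof K t ρ₀ = ∫ x in K, psi t ρ₀ (qq x) := rfl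
  rw [hc, ← hsplit] at hpk
  linarith

/-- arithmetic of the window -/
theorem window_arith (c₀ C₀ C₄ D : ℝ) (hc₀ : 0 < c₀) (hC₄ : 1 ≤ C₄) (hD : 0 < D) :
    ∃ t₀ : ℕ, ∀ t ≥ t₀, 16 ≤ t ∧ ∀ (s ρ₀ : ℝ), c₀ ≤ s → s ≤ C₀ →
      Real.sqrt (t * (1 + s)) ≤ ρ₀ → ρ₀ ^ 2 ≤ C₄ * t →
      ∃ s' : ℝ, c₀ / 2 ≤ s' ∧ s' ≤ C₄ ∧ ∀ q : ℝ, 1 ≤ q →
        |ρ₀ - Real.sqrt (q * t)| ≤ D * Real.sqrt q →
        s' ≤ q - 1 ∧ q - 1 ≤ s' * (1 + (16 * C₄ * D / c₀) / Real.sqrt t) := by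
  obtain ⟨m, hm⟩ := exists_nat_ge ((2 * D + 4 * D * (1 + 1 / c₀) + 4) ^ 2)
  refine ⟨max m 16, fun t ht => ?_⟩
  have ht16 : 16 ≤ t := (le_max_right _ _).trans ht
  have htm : ((2 * D + 4 * D * (1 + 1 / c₀) + 4) ^ 2 : ℝ) ≤ t :=
    hm.trans (by exact_mod_cast (le_max_left _ _).trans ht)
  refine ⟨ht16, ?_⟩
  intro s ρ₀ hs1 hs2 hρ1 hρ2
  have ht0 : (0 : ℝ) < t := by
    have : (16 : ℝ) ≤ t := by exact_mod_cast ht16
    linarith
  have hs0 : 0 < s := lt_of_lt_of_le hc₀ hs1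
  set w := Real.sqrt t with hw
  have hw2 : w ^ 2 = t := Real.sq_sqrt ht0.le
  have hw0 : 0 < w := Real.sqrt_pos.2 ht0
  have hwb : 2 * D + 4 * D * (1 + 1 / c₀) + 4 ≤ w := Real.le_sqrt_of_sq_le htm
  have hDc : 0 < 1 / c₀ := by positivity
  have hwD : 2 * D ≤ w := by nlinarith only [hwb, hD, hDc, mul_pos hD hDc]
  have hwD2 : 4 * D * (1 + 1 / c₀) ≤ w := by linarith
  have hsw : Real.sqrt (t * (1 + s)) ^ 2 = t * (1 + s) := Real.sq_sqrt (by positivity)
  have hρ0 : 0 < ρ₀ := lt_of_lt_of_le (Real.sqrt_pos.2 (by positivity)) hρ1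
  have hρ3 : t * (1 + s) ≤ ρ₀ ^ 2 := by
    rw [← hsw]; exact pow_le_pow_left₀ (Real.sqrt_nonneg _) hρ1 2
  have hwp : 0 < w + D := by linarith
  have hwm : 0 < w - D := by linarith
  refine ⟨ρ₀ ^ 2 / (w + D) ^ 2 - 1, ?_, ?_, ?_⟩
  · -- lower bound
    have h1 : (1 + s) * (1 - 2 * D / w) ≤ ρ₀ ^ 2 / (w + D) ^ 2 := by
      rw [le_div_iff₀ (by positivity)]
      refine le_trans ?_ hρ3
      rw [← hw2]
      have h2 : (1 - 2 * D / w) * (w + D) ^ 2 ≤ w ^ 2 := by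
        have h3 : (1 - 2 * D / w) * (w + D) ^ 2 = w ^ 2 - 3 * D ^ 2 - 2 * D ^ 3 / w := by
          field_simp; ring
        rw [h3]
        have : 0 ≤ 2 * D ^ 3 / w := by positivity
        nlinarith only [this, sq_nonneg D]
      have h4 := mul_le_mul_of_nonneg_left h2 (by linarith : (0 : ℝ) ≤ 1 + s)
      linarith
    have h5 : (1 + s) * (2 * D / w) ≤ s / 2 := by
      rw [mul_div_assoc', div_le_div_iff₀ hw0 (by norm_num)]
      have h6 : 4 * D * (1 + s) ≤ s * w := by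
        have h7 : s * (4 * D * (1 + 1 / c₀)) ≤ s * w := mul_le_mul_of_nonneg_left hwD2 hs0.le
        have h8 : 1 ≤ s * (1 / c₀) := by
          rw [mul_one_div, le_div_iff₀ hc₀]; linarith
        nlinarith only [h7, h8, hD]
      linarith
    linarith
  · have h1 : ρ₀ ^ 2 / (w + D) ^ 2 ≤ C₄ := by
      rw [div_le_iff₀ (by positivity)]
      refine hρ2.trans ?_
      refine mul_le_mul_of_nonneg_left ?_ (by linarith)
      rw [← hw2]
      exact pow_le_pow_left₀ hw0.le (by linarith) 2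
    linarith
  · intro q hq hqw
    have hq0 : 0 < q := by linarith
    set u := Real.sqrt q with hu
    have hu2 : u ^ 2 = q := Real.sq_sqrt hq0.le
    have hu0 : 0 < u := Real.sqrt_pos.2 hq0
    have huw : Real.sqrt (q * t) = u * w := Real.sqrt_mul hq0.le _
    rw [huw, abs_le] at hqw
    have h1 : ρ₀ ≤ u * (w + D) := by linarith [hqw.2]
    have h2 : u * (w - D) ≤ ρ₀ := by linarith [hqw.1]
    have h3 : ρ₀ ^ 2 / (w + D) ^ 2 ≤ q := by
      rw [div_le_iff₀ (by positivity), ← hu2, ← mul_pow]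
      exact pow_le_pow_left₀ hρ0.le h1 2
    have h4 : q ≤ ρ₀ ^ 2 / (w - D) ^ 2 := by
      rw [le_div_iff₀ (by positivity), ← hu2, ← mul_pow]
      exact pow_le_pow_left₀ (by positivity) h2 2
    refine ⟨by linarith, ?_⟩
    -- the lower end
    have h5 : c₀ / 2 ≤ ρ₀ ^ 2 / (w + D) ^ 2 - 1 := by
      have h1 : (1 + s) * (1 - 2 * D / w) ≤ ρ₀ ^ 2 / (w + D) ^ 2 := by
        rw [le_div_iff₀ (by positivity)]
        refine le_trans ?_ hρ3
        rw [← hw2]
        have h2 : (1 - 2 * D / w) * (w + D) ^ 2 ≤ w ^ 2 := by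
          have h3 : (1 - 2 * D / w) * (w + D) ^ 2 = w ^ 2 - 3 * D ^ 2 - 2 * D ^ 3 / w := by
            field_simp; ring
          rw [h3]
          have : 0 ≤ 2 * D ^ 3 / w := by positivity
          nlinarith only [this, sq_nonneg D]
        have h4 := mul_le_mul_of_nonneg_left h2 (by linarith : (0 : ℝ) ≤ 1 + s)
        linarith
      have h5 : (1 + s) * (2 * D / w) ≤ s / 2 := by
        rw [mul_div_assoc', div_le_div_iff₀ hw0 (by norm_num)]
        have h6 : 4 * D * (1 + s) ≤ s * w := by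
          have h7 : s * (4 * D * (1 + 1 / c₀)) ≤ s * w := mul_le_mul_of_nonneg_left hwD2 hs0.le
          have h8 : 1 ≤ s * (1 / c₀) := by
            rw [mul_one_div, le_div_iff₀ hc₀]; linarith
          nlinarith only [h7, h8, hD]
        linarith
      linarith
    have h6 : ρ₀ ^ 2 / (w - D) ^ 2 - ρ₀ ^ 2 / (w + D) ^ 2 ≤ 8 * C₄ * D / w := by
      have e1 : ρ₀ ^ 2 / (w - D) ^ 2 - ρ₀ ^ 2 / (w + D) ^ 2 =
          ρ₀ ^ 2 * (4 * w * D) / (w ^ 2 - D ^ 2) ^ 2 := by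
        have : (w ^ 2 - D ^ 2) = (w - D) * (w + D) := by ring
        rw [this]
        field_simp
        ring
      have hww : 3 / 4 * w ^ 2 ≤ w ^ 2 - D ^ 2 := by nlinarith only [hwD, hD]
      have hw2p : 0 < w ^ 2 := by positivity
      rw [e1, div_le_div_iff₀ (by
        have : 0 < w ^ 2 - D ^ 2 := by linarith
        positivity) hw0]
      have e2 : (3 / 4 * w ^ 2) ^ 2 ≤ (w ^ 2 - D ^ 2) ^ 2 := pow_le_pow_left₀ (by positivity) hww 2
      have e3 : ρ₀ ^ 2 * (4 * w * D) * w ≤ (C₄ * w ^ 2) * (4 * w * D) * w := by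
        rw [hw2]
        gcongr
      refine e3.trans ?_
      have e4 : 8 * C₄ * D * (3 / 4 * w ^ 2) ^ 2 ≤ 8 * C₄ * D * (w ^ 2 - D ^ 2) ^ 2 :=
        mul_le_mul_of_nonneg_left e2 (by positivity)
      refine le_trans ?_ e4
      have e5 : 0 ≤ C₄ * D * w ^ 4 := by positivity
      nlinarith only [e5]
    have h7 : 8 * C₄ * D / w ≤ (ρ₀ ^ 2 / (w + D) ^ 2 - 1) * (16 * C₄ * D / c₀ / w) := by
      have e1 : c₀ / 2 * (16 * C₄ * D / c₀ / w) = 8 * C₄ * D / w := by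
        field_simp; ring
      rw [← e1]
      exact mul_le_mul_of_nonneg_right h5 (by positivity)
    linarith

/-- C1a: a window of relative width `C/√t` carrying a constant part of the mass -/
theorem window : ∃ c C : ℝ, 0 < c ∧ 1 ≤ C ∧ ∃ t₀ : ℕ, ∀ t ≥ t₀, 16 ≤ t ∧ ∀ n : ℕ,
    Real.exp ((t : ℝ) ^ 3) ≤ n → ∀ K : Set (Fin n → ℝ), Convex ℝ K → IsCompact K →
    0 < volume K →
    (∀ i j, ∫ x in K, x i * x j = if i = j then (volume K).toReal else 0) →
    ∃ s : ℝ, c ≤ s ∧ s ≤ C ∧ c * (volume K).toReal ≤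
      (volume {x ∈ K | s * n ≤ ∑ i, x i ^ 2 ∧
        ∑ i, x i ^ 2 ≤ s * (1 + C / Real.sqrt t) * n}).toReal := by
  obtain ⟨c₀, C₀, hc₀, hC₀, hshell⟩ := scale_select
  set C₄ : ℝ := 9 * (1 + 2 * C₀) with hC₄
  have hC₄1 : 1 ≤ C₄ := by rw [hC₄]; linarith
  have hC₄0 : 0 < C₄ := by linarith
  obtain ⟨cp, hcp, hpeak⟩ := peak (κ := 1 / (4 * C₄)) (by positivity)
  set c₇ : ℝ := cp * (Real.exp (-4) * c₀) with hc₇
  have hc₇0 : 0 < c₇ := by positivity
  set D : ℝ := 2 / c₇ with hD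
  have hD0 : 0 < D := by positivity
  obtain ⟨t₁, hnum⟩ := cond_num c₀ (C₀ + C₄ / 2) hc₀
  obtain ⟨t₂, harith⟩ := window_arith c₀ C₀ C₄ D hc₀ hC₄1 hD0
  set c : ℝ := min (c₀ / 2) (c₇ / 2) with hc
  set C : ℝ := max C₄ (16 * C₄ * D / c₀) with hC
  refine ⟨c, C, by positivity, le_max_of_le_left hC₄1, max t₁ t₂, ?_⟩
  intro t ht
  obtain ⟨ht1, hnum'⟩ := hnum t ((le_max_left _ _).trans ht)
  obtain ⟨ht16, harith'⟩ := harith t ((le_max_right _ _).trans ht)
  refine ⟨ht16, ?_⟩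
  intro n hn K hKc hKk hKpos hiso
  have ht16r : (16 : ℝ) ≤ t := by exact_mod_cast ht16
  have ht0 : (0 : ℝ) < t := by linarith
  have hn0 : (0 : ℝ) < n := lt_of_lt_of_le (Real.exp_pos _) hn
  have hn1 : 1 ≤ n := by
    have : 0 < n := by exact_mod_cast hn0
    omega
  have hiso1 : ∀ i, ∫ x in K, x i ^ 2 = (volume K).toReal := by
    intro i
    have := hiso i i
    rw [if_pos rfl] at this
    rw [← this]
    congr 1
    funext x
    ring
  obtain ⟨s, hs1, hs2, hmass⟩ := hshell n 1 hn1 le_rfl K hKc hKk hiso1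
  have hs0 : 0 < s := lt_of_lt_of_le hc₀ hs1
  set V : ℝ := (volume K).toReal with hV
  have hV0 : 0 < V := ENNReal.toReal_pos hKpos.ne' hKk.measure_lt_top.ne
  have hmass' : c₀ * V ≤ (volume {x ∈ K | s * n ≤ ∑ i, x i ^ 2 ∧
      ∑ i, x i ^ 2 ≤ s * 2 * n}).toReal := by
    have e : s * (1 + 1 / ((1 : ℕ) : ℝ)) * n = s * 2 * n := by push_cast; ring
    rw [e, Nat.cast_one, div_one] at hmass
    exact hmass
  set lo := Real.sqrt (t * (1 + s)) with hlo
  have hlo0 : 0 < lo := Real.sqrt_pos.2 (by positivity)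
  set J := ⌈Real.sqrt (t * (1 + 2 * s))⌉₊ with hJ
  have hrange : ∀ ρ ∈ Set.Icc lo (lo + J), 0 < ρ ∧ ρ ^ 2 ≤ C₄ * t := by
    intro ρ hρ
    have hρ0 : 0 < ρ := lt_of_lt_of_le hlo0 hρ.1
    refine ⟨hρ0, ?_⟩
    set R := Real.sqrt (t * (1 + 2 * C₀)) with hR
    have hR2 : R ^ 2 = t * (1 + 2 * C₀) := Real.sq_sqrt (by positivity)
    have h1 : lo ≤ R := Real.sqrt_le_sqrt (by
      refine mul_le_mul_of_nonneg_left ?_ ht0.le
      linarith)
    have h2 : Real.sqrt (t * (1 + 2 * s)) ≤ R := Real.sqrt_le_sqrt (by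
      refine mul_le_mul_of_nonneg_left ?_ ht0.le
      linarith)
    have h3 : (J : ℝ) < Real.sqrt (t * (1 + 2 * s)) + 1 := Nat.ceil_lt_add_one (Real.sqrt_nonneg _)
    have h4 : 1 ≤ R := by
      rw [hR, Real.one_le_sqrt]
      nlinarith only [ht16r, hC₀]
    have h5 : ρ ≤ 3 * R := by linarith [hρ.2]
    calc ρ ^ 2 ≤ (3 * R) ^ 2 := pow_le_pow_left₀ hρ0.le h5 2
      _ = C₄ * t := by rw [mul_pow, hR2, hC₄]; ring
  obtain ⟨ρ₀, hρ₀, hpk⟩ := hpeak (prof K t) lo V (Real.exp (-4) * (c₀ * V)) J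
    (fun ρ hρ => ⟨prof_nonneg _ _ _, prof_le K hKk ht0 (hrange ρ hρ).1⟩)
    (fun ρ₁ h1 ρ₂ h2 => prof_mid hn1 ht1 hn K hKc hKk hiso s c₀ C₀ C₄ hs0 hc₀ hs2 hC₄0 hmass'
      hnum' ρ₁ ρ₂ (hrange _ h1).1 (hrange _ h2).1 (hrange _ h1).2 (hrange _ h2).2)
    (by positivity)
    ((mul_le_mul_of_nonneg_left hmass' (Real.exp_pos _).le).trans
      (grid_sum hn1 ht16 K hKk s hs0))
  have hpk' : c₇ * V ≤ prof K t ρ₀ := by
    refine le_trans (le_of_eq ?_) hpk
    rw [hc₇]; ring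
  have hwin := window_of_peak hn1 ht1 K hKk ρ₀ c₇ (hrange _ hρ₀).1 hc₇0 hpk'
  obtain ⟨s', hs'1, hs'2, hq⟩ := harith' s ρ₀ hs1 hs2 hρ₀.1 (hrange _ hρ₀).2
  refine ⟨s', (min_le_left _ _).trans hs'1, hs'2.trans (le_max_left _ _), ?_⟩
  calc c * V ≤ c₇ / 2 * V := mul_le_mul_of_nonneg_right (min_le_right _ _) hV0.le
    _ ≤ _ := hwin
    _ ≤ _ := by
      refine ENNReal.toReal_mono ?_ (measure_mono ?_)
      · exact ((measure_mono fun x hx => hx.1).trans_lt hKk.measure_lt_top).ne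
      · rintro x ⟨hxK, hx⟩
        obtain ⟨h1, h2⟩ := hq (qq x) (qq_ge x) hx
        have e : qq x - 1 = (∑ i, x i ^ 2) / n := by unfold qq; ring
        rw [e] at h1 h2
        refine ⟨hxK, ?_, ?_⟩
        · rwa [le_div_iff₀ hn0] at h1
        · rw [div_le_iff₀ hn0] at h2
          refine h2.trans ?_
          have h3 : 16 * C₄ * D / c₀ / Real.sqrt t ≤ C / Real.sqrt t :=
            div_le_div_of_nonneg_right (le_max_right _ _) (Real.sqrt_nonneg _)
          have hs'0 : 0 ≤ s' := by linarith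
          gcongr

end Vale.Agent.P230.C1
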